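import Vale.Agent.N354C.W11
import Vale.Agent.N354.Ext
import Vale.Agent.P354L.Box
import Vale.Agent.P354P.Sp

/-! P354 (helper87): the metric extends across the front u = infinity. -/

open scoped ContDiff
open Set Filter Topology MeasureTheory Metric

namespace Vale.Agent.N354C

open Vale.Agent.P354n
open Vale.Agent.P354L (em lg rr Wt Est Sy W D d1 d2 ku kv ex lg_der lg_sm lg_lim rr_pos dif Le)
open Vale.Agent.P354P (bil)

/-- The old coordinates as functions of the new ones. -/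
noncomputable def R (κ : ℝ) (y : R4) : R4 := (lg κ y.1, y.2)

variable {κ r v1 : ℝ} {k : ℝ → ℝ} {Q : Set R4} {f : R4 → ℝ} {y : R4} {p : ℝ × ℝ × ℝ}
  {C : ℕ → R4 → ℝ}

theorem R_sm (κ : ℝ) (h : y.1 < 0) : ContDiffAt ℝ ∞ (R κ) y :=
  ((lg_sm κ h).comp y contDiffAt_fst).prodMk contDiffAt_snd

theorem fderiv_R (hκ : 0 < κ) (h : y.1 < 0) (a : R4) :
    fderiv ℝ (R κ) y a = (rr κ y.1 * a.1, a.2) := by
  have e1 := (lg_der hκ h).comp_hasFDerivAt y (hasFDerivAt_fst (𝕜 := ℝ) (p := y))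
  exact congrArg (fun B : R4 →L[ℝ] R4 => B a) (e1.prodMk (hasFDerivAt_snd (𝕜 := ℝ) (p := y))).fderiv

/-- The integrable weight. -/
noncomputable def nn (κ : ℝ) (k : ℝ → ℝ) (s : ℝ) : ℝ := k (lg κ (-|s|)) * rr κ (-|s|) + 1

theorem lift (hk : Wt κ k) (hQ : ∀ y ∈ ball ((0, p) : R4) r, y.1 < 0 → R κ y ∈ Q)
    (h1 : Sy Q 1 f 1) (h2 : Sy Q 0 (D du f) (ku k)) (h3 : Sy Q 0 (D dv f) 1) :
    ∃ g, Gd (ball (0, p) r) (nn κ k) g ∧
      ∀ y ∈ ball ((0, p) : R4) r, y.1 ≠ 0 → g y = f (R κ (rf y)) := by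
  obtain ⟨P, hP⟩ := hk.pr
  obtain ⟨K, ⟨⟨b1, b2⟩, b3, b4, b5⟩, k0⟩ := ((((W.ev h1).and (W.ev h2)).and ((W.ev h3).and
    ((W.ev h1.e1).and (W.ev h1.e2)))).and (eventually_ge_atTop 0)).exists
  refine extend (n := fun s => k (lg κ s) * rr κ s) (N := fun s => P (lg κ s))
    (F := fun y => f (R κ y)) (K := 3 * K) (fun s hs => (hP.der _).comp s (lg_der hk.pos hs))
    (hP.lim.comp (lg_lim hk.pos)) (fun s _ => (mul_pos (hk.kpos _) (rr_pos hk.pos _)).le)
    (by positivity) fun y y1 y2 => ?_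
  have m := hQ y y1 y2
  have s1 := dif (W.sm h1 _ m)
  have s2 := dif (R_sm κ y2)
  refine ⟨s1.comp y s2, by have := b1 _ m; simp at this; linarith, fun a => ?_⟩
  rw [fderiv_fun_comp y s1 s2, ContinuousLinearMap.comp_apply, fderiv_R hk.pos y2,
    show ((rr κ y.1 * a.1, a.2) : R4) = (rr κ y.1 * a.1) • du + (0, a.2) by simp [du], map_add,
    map_smul]
  refine (abs_add_le _ _).trans (add_le_add ?_ ?_)
  · have c := b2 _ m
    have r0 := rr_pos hk.pos y.1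
    have c0 := hk.kpos (lg κ y.1)
    change |fderiv ℝ f (R κ y) du| ≤ K * |k (lg κ y.1)| at c
    rw [abs_of_pos c0] at c
    rw [smul_eq_mul, abs_mul, abs_mul, abs_of_pos r0]
    have := mul_le_mul_of_nonneg_left c (mul_nonneg r0.le (abs_nonneg a.1))
    have : 0 ≤ K * (k (lg κ y.1) * rr κ y.1) * |a.1| := by positivity
    nlinarith
  · have := P354L.norm_fderiv_le (f := f) (x := R κ y) (a := (0, a.2)) (.inl ⟨rfl, le_rfl⟩)
      (.inr (b3 _ m)) (b4 _ m) (b5 _ m)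
    simp only [Pi.one_apply, abs_one, mul_one, Prod.norm_mk, norm_zero,
      max_eq_right (norm_nonneg a.2), Real.norm_eq_abs] at this
    linarith

theorem signature {C : ℕ → R4 → ℝ} (p0 : 0 < C 0 y) (p1 : C 1 y ^ 2 < 4 * (C 0 y * C 2 y))
    (p3 : 0 < C 3 y) : ∃ L : R4 → R4, IsLinearMap ℝ L ∧ L.Injective ∧
    ∀ w z, bil C y w z = mink (L w) (L z) := by
  have p2 : 0 < C 2 y - C 1 y ^ 2 / (4 * C 0 y) := by
    rw [sub_pos, div_lt_iff₀ (by positivity)]; linarith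
  obtain ⟨A, A0, eA⟩ : ∃ A > 0, A * A = C 3 y := ⟨_, Real.sqrt_pos.2 p3, Real.mul_self_sqrt p3.le⟩
  obtain ⟨B, B0, eB⟩ : ∃ B > 0, B * B = C 0 y := ⟨_, Real.sqrt_pos.2 p0, Real.mul_self_sqrt p0.le⟩
  obtain ⟨D, D0, eD⟩ : ∃ D > 0, D * D = C 2 y - C 1 y ^ 2 / (4 * C 0 y) :=
    ⟨_, Real.sqrt_pos.2 p2, Real.mul_self_sqrt p2.le⟩
  have hl : IsLinearMap ℝ fun w : R4 => ((A / 2 * (cu w + cv w), A / 2 * (cu w - cv w),
      B * (h1 C y w + C 1 y / (2 * C 0 y) * h2 C y w), D * h2 C y w) : R4) := by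
    refine ⟨fun w z => ?_, fun k w => ?_⟩
    · simp only [h1, h2, cu, cv, c1, c2, Prod.fst_add, Prod.snd_add, Prod.mk_add_mk, Prod.mk.injEq]
      exact ⟨by ring, by ring, by ring, by ring⟩
    · simp only [h1, h2, cu, cv, c1, c2, Prod.smul_fst, Prod.smul_snd, smul_eq_mul, Prod.smul_mk,
        Prod.mk.injEq]
      exact ⟨by ring, by ring, by ring, by ring⟩
  refine ⟨_, hl, fun w z e => ?_, fun w z => ?_⟩
  · simp only [Prod.mk.injEq] at e
    obtain ⟨q1, q2, q3, q4⟩ := e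
    have q5 := mul_left_cancel₀ (half_pos A0).ne' q1
    have q6 := mul_left_cancel₀ (half_pos A0).ne' q2
    have q7 := mul_left_cancel₀ D0.ne' q4
    have q8 := mul_left_cancel₀ B0.ne' q3
    have q9 : cu w = cu z := by linarith
    have q10 : cv w = cv z := by linarith
    rw [q7, add_left_inj] at q8
    simp only [h1, h2, q9, q10, sub_left_inj] at q7 q8
    exact Prod.ext q9 (Prod.ext q10 (Prod.ext q8 q7))
  · have e : C 0 y * (C 1 y / (2 * C 0 y)) = C 1 y / 2 := by field_simp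
    have e' : C 0 y * (C 1 y / (2 * C 0 y)) ^ 2 = C 1 y ^ 2 / (4 * C 0 y) := by
      field_simp; ring
    simp only [bil, mink]
    generalize h1 C y w = s, h2 C y w = r, h1 C y z = s', h2 C y z = r',
      C 1 y / (2 * C 0 y) = E at e e' ⊢
    simp only [cu, cv, c1, c2]
    linear_combination (1 / 2 * (w.1 * z.2.1 + w.2.1 * z.1)) * eA -
      (s + E * r) * (s' + E * r') * eB - r * r' * eD - (s * r' + r * s') * e - r * r' * e'

theorem Gd.bil {B : Set R4} {n : ℝ → ℝ} (hB : Bornology.IsBounded B)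
    (hn : ∀ y ∈ B, y.1 ≠ 0 → 1 ≤ n y.1) (h : ∀ i, Gd B n (C i)) (a b : R4) :
    Gd B n fun y => bil C y a b := by
  have c : ∀ t : ℝ, Gd B n fun _ => t := fun t => .smooth hB hn contDiff_const
  have q1 : ∀ a, Gd B n fun y => h1 C y a := fun a => by
    have := ((c (c1 a)).add ((h 4).mul (c (-cv a)))).add ((h 6).mul (c (-cu a)))
    simpa only [h1, mul_neg, sub_eq_add_neg] using this
  have q2 : ∀ a, Gd B n fun y => h2 C y a := fun a => by
    have := ((c (c2 a)).add ((h 5).mul (c (-cv a)))).add ((h 7).mul (c (-cu a)))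
    simpa only [h2, mul_neg, sub_eq_add_neg] using this
  have := ((((h 0).mul ((q1 a).mul (q1 b))).add (((h 1).mul (c 2⁻¹)).mul (((q1 a).mul (q2 b)).add
    ((q2 a).mul (q1 b))))).add ((h 2).mul ((q2 a).mul (q2 b)))).add
    (((h 3).mul (c 2⁻¹)).mul (c (-(cu a * cv b + cv a * cu b))))
  simpa only [P354P.bil, mul_neg, sub_eq_add_neg, div_eq_mul_inv] using this

theorem front (hk : Wt κ k) (h : Est κ k Q C) (hv : ∀ x ∈ Q, v1 ≤ cv x) (hr : 0 < r)
    (hQ : ∀ y ∈ ball ((0, p) : R4) r, y.1 < 0 → R κ y ∈ Q) (h6 : ∀ x, C 6 x = 0)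
    (h7 : ∀ x, C 7 x = 0) : ∃ (G : R4 → R4 → R4 → ℝ) (w : R4) (r' : ℝ), r' ≤ r ∧ ‖w‖ < r' ∧
      0 < cu w ∧ 0 < cv w ∧ (∀ y ∈ ball ((0, p) : R4) r', (y.1 < 0 → ∀ a b,
        bil C (R κ y) (fderiv ℝ (R κ) y a) (fderiv ℝ (R κ) y b) = G y a b) ∧
      (∃ L : R4 → R4, IsLinearMap ℝ L ∧ L.Injective ∧ ∀ a b, G y a b = mink (L a) (L b)) ∧
      G y w w < 0) ∧ ∀ a b, IsC0W1 1 (fun y => G y a b) (ball (0, p) r') := by
  have hκ := hk.pos
  have l1 : Le Q (kv k) 1 := hk.le1 hv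
  have l2 : Le Q (ex κ) (ku k) := ⟨Real.exp (-(κ * v1)), (Real.exp_pos _).le, fun x hx => by
    rw [P354L.ex_eq, abs_of_pos (by positivity), abs_of_pos (hk.kpos _)]
    exact mul_le_mul (Real.exp_le_exp.2 (neg_le_neg (mul_le_mul_of_nonneg_left (hv x hx) hκ.le)))
      (hk.low _) (Real.exp_pos _).le (Real.exp_pos _).le⟩
  have g : ∀ i < 3, _ := fun i hi => lift hk hQ (h.gam i hi).1.low (h.gam i hi).2.1.low
    (W.le (h.gam i hi).2.2.1.low l1)
  have s : ∀ i, i = 4 ∨ i = 5 → _ := fun i hi => lift hk hQ (W.le (h.sh i hi).1.low.low l1)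
    (W.le (h.sh i hi).2.1.low.low l2) (h.sh i hi).2.2
  obtain ⟨g0, a0, b0⟩ := g 0 (by simp)
  obtain ⟨g1, a1, b1⟩ := g 1 (by simp)
  obtain ⟨g2, a2, b2⟩ := g 2 (by simp)
  obtain ⟨g3, a3, b3⟩ := lift hk hQ (h.om _ rfl).1 (h.om _ rfl).2.1 (W.le (h.om _ rfl).2.2 l1)
  obtain ⟨g4, a4, b4⟩ := s 4 (.inl rfl)
  obtain ⟨g5, a5, b5⟩ := s 5 (.inr rfl)
  obtain ⟨K, k0, hK⟩ := h.low
  have hn : ∀ y ∈ ball ((0, p) : R4) r, y.1 ≠ 0 → 1 ≤ nn κ k y.1 := fun y _ _ =>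
    le_add_of_nonneg_left (mul_pos (hk.kpos _) (rr_pos hκ _)).le
  let C' : ℕ → R4 → ℝ := fun i => match i with
    | 0 => g0
    | 1 => g1
    | 2 => g2
    | 3 => fun y => g3 y * (Real.exp (-(κ * cv y)) / κ)
    | 4 => g4
    | 5 => g5
    | _ => fun _ => 0
  have gd : ∀ i, Gd (ball (0, p) r) (nn κ k) (C' i) := fun i => by
    rcases lt_or_ge i 6 with hi | hi
    · interval_cases i
      exacts [a0, a1, a2, a3.mul (.smooth isBounded_ball hn (by unfold cv; fun_prop)), a4, a5]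
    · obtain ⟨j, rfl⟩ := Nat.exists_eq_add_of_le' hi
      exact .smooth isBounded_ball hn contDiff_const
  have m : ∀ y ∈ ball ((0, p) : R4) r, y.1 ≠ 0 → R κ (rf y) ∈ Q := fun y y1 y2 =>
    hQ _ (rf_mem y1 y2).1 (rf_mem y1 y2).2
  have p3 : ∀ y ∈ ball ((0, p) : R4) r, 0 < C' 3 y := fun y hy => by
    have := le_of_off (f := fun _ => 1) (g := fun y => K * g3 y) continuousOn_const
      (continuousOn_const.mul a3.cont) (fun y y1 y2 => by
        rw [b3 y y1 y2]; exact (hK _ (m y y1 y2)).1) y hy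
    exact mul_pos (pos_of_mul_pos_right (zero_lt_one.trans_le this) k0) (by positivity)
  have pq : ∀ y ∈ ball ((0, p) : R4) r, ∀ s t : ℝ, s ≠ 0 ∨ t ≠ 0 →
      0 < g0 y * s ^ 2 + g1 y * s * t + g2 y * t ^ 2 := fun y hy s t hst => by
    have := le_of_off (f := fun _ => ‖((0, 0, s, t) : R4)‖ ^ 2)
      (g := fun y => K * (g0 y * s ^ 2 + g1 y * s * t + g2 y * t ^ 2)) continuousOn_const
      (continuousOn_const.mul (((a0.cont.mul continuousOn_const).add ((a1.cont.mul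
        continuousOn_const).mul continuousOn_const)).add (a2.cont.mul continuousOn_const)))
      (fun y y1 y2 => by
        rw [b0 y y1 y2, b1 y y1 y2, b2 y y1 y2]
        simpa [form, h1, h2, cu, cv, c1, c2] using (hK _ (m y y1 y2)).2 (0, 0, s, t) rfl rfl) y hy
    refine pos_of_mul_pos_right (lt_of_lt_of_le (pow_pos (norm_pos_iff.2 ?_) 2) this) k0
    simpa [or_iff_not_imp_left] using hst
  have p0 : ∀ y ∈ ball ((0, p) : R4) r, 0 < g0 y := fun y hy => by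
    simpa using pq y hy 1 0 (.inl one_ne_zero)
  have p1 : ∀ y ∈ ball ((0, p) : R4) r, g1 y ^ 2 < 4 * (g0 y * g2 y) := fun y hy => by
    have j := p0 y hy
    have := pq y hy (-g1 y) (2 * g0 y) (.inr (by positivity))
    by_contra! i
    nlinarith [mul_le_mul_of_nonneg_left i j.le]
  have z0 : ((0, p) : R4) ∈ ball ((0, p) : R4) r := mem_ball_self hr
  obtain ⟨ε, e0, e1⟩ := exists_pos_mul_lt (p3 _ z0)
    (g0 (0, p) * g4 (0, p) ^ 2 + g1 (0, p) * g4 (0, p) * g5 (0, p) + g2 (0, p) * g5 (0, p) ^ 2)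
  have t0 : bil C' (0, p) (1, ε, 0, 0) (1, ε, 0, 0) < 0 := by
    have := mul_lt_mul_of_pos_left e1 e0
    simp only [bil, h1, h2, cu, cv, c1, c2, C'] at this ⊢
    linarith
  obtain ⟨r1, r0, t1⟩ := Metric.eventually_nhds_iff_ball.1 ((((Gd.bil isBounded_ball hn gd
    (1, ε, 0, 0) (1, ε, 0, 0)).cont.continuousAt (isOpen_ball.mem_nhds z0))).eventually_lt_const t0)
  obtain ⟨t, t2, t3⟩ := exists_pos_mul_lt (lt_min hr r0) ‖((1, ε, 0, 0) : R4)‖
  have sub : ball ((0, p) : R4) (min r r1) ⊆ ball (0, p) r := ball_subset_ball (min_le_left _ _)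
  refine ⟨bil C', t • (1, ε, 0, 0), min r r1, min_le_left _ _, ?_, ?_, ?_, fun y hy =>
    ⟨fun y2 a b => ?_, signature (p0 y (sub hy)) (p1 y (sub hy)) (p3 y (sub hy)), ?_⟩,
    fun a b => N354.c0w1_sub sub ((Gd.bil isBounded_ball hn gd a b).c0w1 isOpen_ball
      (int_n (n := fun s => k (lg κ s) * rr κ s) hr ?_))⟩
  · rwa [norm_smul, Real.norm_eq_abs, abs_of_pos t2, mul_comm]
  · simpa [cu] using t2
  · simpa [cv] using mul_pos t2 e0
  · have e : rf y = y := Prod.ext (by simp [rf, abs_of_neg y2]) rfl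
    have j := sub hy
    have e3 : Real.exp (κ * (lg κ y.1 + y.2.1)) * (Real.exp (-(κ * y.2.1)) / κ) = rr κ y.1 := by
      rw [rr, ← mul_div_assoc, ← Real.exp_add]
      congr 2
      ring
    simp only [fderiv_R hκ y2, bil, h1, h2, C', h6, h7, b0 y j y2.ne, b1 y j y2.ne, b2 y j y2.ne,
      b3 y j y2.ne, b4 y j y2.ne, b5 y j y2.ne, e, cu, cv, c1, c2]
    rw [mul_assoc (C 3 _), show (R κ y).1 = lg κ y.1 from rfl, show (R κ y).2.1 = y.2.1 from rfl,
      e3]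
    ring
  · have := mul_neg_of_pos_of_neg (mul_pos t2 t2) (t1 y (ball_subset_ball (min_le_right _ _) hy))
    refine lt_of_eq_of_lt ?_ this
    simp only [bil, h1, h2, cu, cv, c1, c2, Prod.smul_mk, smul_eq_mul]
    ring
  · have := memLp_one_iff_integrable.1 ⟨(P354L.kb_int hk 1 (neg_lt_zero.2 hr)).1.aestronglyMeasurable,
      (P354L.kb_int hk 1 (neg_lt_zero.2 hr)).2⟩
    exact this.congr (.of_forall fun s => by simp only [P354L.kb, one_mul])

end Vale.Agent.N354C
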