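import Vale.Agent.N354C.Sep
import Vale.Agent.N354C.Front

/-! P354 (helper87): the maximal development extends across the Cauchy horizon. -/

open scoped ContDiff
open Set Filter Topology Metric

noncomputable section

namespace Vale.Agent.N354C

open Vale.Agent.P354n
open Vale.Agent.P354XJ (res pl_spacetime pl_vacuum pl_isom pl_on pl_co pl_tgt pl_inv co_mem inv_co
  isOpen_tgt inv_mem)
open Vale.Agent.P354XE (Tw Low Ind)
open Vale.Agent.P354I (X Dat IsDev Th)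
open Vale.Agent.P354J (PDy)
open Vale.Agent.P354Z (IsMGHD)
open Vale.Agent.P354YG
open Vale.Agent.P354CB
open Vale.Agent.P354CB60 (l0 l1 l2 l3)
open Vale.Agent.P354P hiding rr
open Vale.Agent.P354L (Wt Est Qd em lg em_lg lg_em em_neg em_sm em_mono rr rr_pos)

variable {δ : ℝ} {C : Bool → ℕ → R4 → ℝ}

theorem tau_eq (δ : ℝ) (p : Pt) : uu δ p + vv δ p = 2 * (Real.exp p.1 - δ) := by
  rw [uu, vv]; ring

/-- Points of the interior have points of the slice with the same x in their past. -/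
theorem down (hC : IsDN δ C) (hv : IsVacuum (sp δ C)) {O : Set Pt} (hO : IsOpen O)
    (m2 : ∀ q, Real.log δ ≤ q.1 → q ∈ O) {K : Set O} (hK : IsClosed K)
    (dn : ∀ a : O, Real.log δ ≤ a.1.1 → ∀ b ∈ K, LL (res (sp δ C) O hO) a b → a ∈ K) {q : O}
    (hq : q ∈ K) (h0 : Real.log δ ≤ q.1.1) : ∃ p ∈ K, p.1.1 = Real.log δ ∧ p.1.2.1 = q.1.2.1 := by
  have cp : IsCompact (Subtype.val ⁻¹' (Icc (Real.log δ) q.1.1 ×ˢ {q.1.2.1} ×ˢ univ) : Set O) :=
    IsInducing.subtypeVal.isCompact_preimage'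
      (isCompact_Icc.prod (isCompact_singleton.prod isCompact_univ))
      fun p hp => ⟨⟨p, m2 p hp.1.1⟩, rfl⟩
  obtain ⟨p, ⟨⟨p1, p2, -⟩, p3⟩, p4⟩ := (cp.inter_right hK).exists_isMinOn
    ⟨q, ⟨⟨h0, le_rfl⟩, rfl, trivial⟩, hq⟩ (f := fun p : O => p.1.1) (by fun_prop)
  refine ⟨p, p3, p1.1.eq_or_lt.elim Eq.symm fun k => False.elim ?_, p2⟩
  obtain ⟨σ, i1, -⟩ := exists_in δ p.1
  have st : St (res (sp δ C) O hO) := ⟨pl_spacetime (isSpacetime hC), pl_vacuum hv⟩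
  let e : (res (sp δ C) O hO).Chart := (Ch.id δ σ, p)
  have on : On e p := pl_on.2 (on_id.2 i1)
  have m := co_mem on
  have tl := st.sp.timelike e _ m
  have k' : δ < Real.exp p.1.1 := (Real.log_lt_iff_lt_exp hC.pos).1 k
  have c1 : Tendsto (fun s : ℝ => co e p - s • (res (sp δ C) O hO).X e (co e p)) (𝓝[>] 0)
      (𝓝 (co e p)) := by
    have c : Continuous fun s : ℝ => co e p - s • (res (sp δ C) O hO).X e (co e p) := by fun_prop
    simpa using (c.tendsto 0).mono_left (nhdsWithin_le_nhds (s := Ioi 0))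
  obtain ⟨s, ⟨s1, s2⟩, s3⟩ := (((l1.b.ray st m tl tl).and
    (c1.eventually ((isOpen_tgt e).mem_nhds m))).and (Ioo_mem_nhdsGT (sub_pos.2 k'))).exists
  have e1 : (inv e (co e p - s • (res (sp δ C) O hO).X e (co e p))).1 =
      sb δ σ (bs δ σ p.1 - s • X0 (C σ) (bs δ σ p.1)) :=
    (pl_inv s2).trans (congrArg (fun w => sb δ σ (bs δ σ p.1 - s • w)) X_id)
  obtain ⟨a, ha⟩ : ∃ a, a = inv e (co e p - s • (res (sp δ C) O hO).X e (co e p)) := ⟨_, rfl⟩
  rw [← ha] at e1 s1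
  have e2 : a.1.1 = Real.log (Real.exp p.1.1 - s) := by
    rw [e1]
    simp only [sb, bs, X0, cu, cv, Prod.fst_sub, Prod.snd_sub, Prod.smul_mk, smul_eq_mul]
    congr 1
    ring
  have e3 : a.1.2.1 = p.1.2.1 := by
    rw [e1]
    simp only [sb, bs, X0, cu, cv, Prod.fst_sub, Prod.snd_sub, Prod.smul_mk, smul_eq_mul]
    ring
  have d0 := hC.pos
  have l1 : Real.log δ ≤ a.1.1 := e2 ▸ Real.log_le_log d0 (by linarith [s3.2])
  have l2 : a.1.1 < p.1.1 := by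
    rw [e2, Real.log_lt_iff_lt_exp (by linarith [s3.2])]
    linarith [s3.1]
  exact (p4 ⟨⟨⟨l1, l2.le.trans p1.2⟩, e3.trans p2, trivial⟩,
    dn a l1 p p3 (inv_co on ▸ s1.1)⟩).not_gt l2

/-- The chart with the coordinate U. -/
def chU {κ : ℝ} (hκ : 0 < κ) (δ : ℝ) {B : Set R4} (hB : IsOpen B)
    (h : ∀ y ∈ B, y.1 < 0 → R κ y ∈ Dm δ) : Ch δ where
  σ := true
  ξ :=
    { toFun x := (em κ x.1, x.2)
      invFun := R κ
      source := (fun x : R4 => ((em κ x.1, x.2) : R4)) ⁻¹' B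
      target := B ∩ {y | y.1 < 0}
      map_source' _ hx := ⟨hx, em_neg _ _⟩
      map_target' y hy := by simpa [R, em_lg hκ hy.2] using hy.1
      left_inv' x _ := by simp [R, lg_em hκ]
      right_inv' y hy := by simp [R, em_lg hκ hy.2]
      open_source := hB.preimage (((em_sm κ).continuous.comp continuous_fst).prodMk continuous_snd)
      open_target := hB.inter (isOpen_lt continuous_fst continuous_const)
      continuousOn_toFun :=
        (((em_sm κ).continuous.comp continuous_fst).prodMk continuous_snd).continuousOn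
      continuousOn_invFun _ hy := (R_sm κ hy.2).continuousAt.continuousWithinAt }
  sm := (((em_sm κ).comp contDiff_fst).prodMk contDiff_snd).contDiffOn
  sm' _ hy := (R_sm κ hy.2).contDiffWithinAt
  sub x hx := by simpa [R, lg_em hκ] using h _ hx (em_neg _ _)

theorem extension {d d' : Dat} {D : Set R4} {g : Tw} {Xf : R4 → R4} {ρ : R4 → ℝ} {J : X → R4}
    {V : Bool → R4 → P354C.Ix → ℝ} (hl : Low d D g Xf ρ J) (hd : PDy d) (hd' : PDy d')
    (hi : Ind g Xf J d') (G : Glob d' δ V) {κ : ℝ} {k : ℝ → ℝ} (hk : Wt κ k)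
    (E : Est κ k (Qd 0 0 Th) (coef V true)) {S : Spc} {j : X → S.pt} (hS : IsMGHD d S j) :
    ∃ N ι γ, IsFutureExtension (IsC0W1 1) S N ι γ ∧ ConnectedSpace N.pt ∧
      SecondCountableTopology N.pt := by
  obtain ⟨O1, hO1, ψ, k1, k2, k3, k4⟩ := P354YC.col P354CB60.gu D g Xf ρ J hl.cut d' δ V hd' hi G
  have d0 := G.pos
  have hC := G.isDN
  have hv := G.vacuum P354Q.vac
  have hM := inn_sp hC hv
  have t0 : ∀ p : Pt, 0 ≤ uu δ p + vv δ p ↔ Real.log δ ≤ p.1 := fun p => by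
    rw [tau_eq, Real.log_le_iff_le_exp d0]
    exact ⟨fun k => by linarith, fun k => by linarith⟩
  obtain ⟨N, D1, O, hO, i1, i2, e, h, dis⟩ := exists_gd0 (hO := hO1) hl.cut hM
    ⟨k1, k2, fun y hy => ⟨_, (k3 y hy).2⟩, fun (q : Pt) hq => by
      obtain ⟨y, hy, rfl⟩ := (mem_jX (δ := δ) (p := q)).2 (by
        rw [← Real.exp_eq_exp, Real.exp_log d0]
        linarith [tau_eq δ q])
      exact (k3 y hy).1, fun a => by
      rw [(k4 a).1, (k4 a).2, Real.log_lt_iff_lt_exp d0, Real.lt_log_iff_exp_lt d0]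
      have := tau_eq δ a.1
      exact ⟨⟨fun k => by linarith, fun k => by linarith⟩, fun k => by linarith,
        fun k => by linarith⟩⟩
  obtain ⟨jN, hN, sl⟩ := dev h hl hM
  obtain ⟨χ, c1, c2, c3⟩ := hS.2 N jN hN
  have com : Com (d := d) ⟨_, N, jN, dev_of hN⟩ ⟨_, S, j, dev_of hS.1⟩ univ χ :=
    ⟨Hull.univ, fun x _ => l0.k1.of_isom c2 c1.continuous x, fun y a _ => ⟨a, c3 y a⟩⟩
  obtain ⟨φ, hφ, -⟩ := l3.symm d hd _ _ _ _ com
  have hu : Hull S (j '' {0}ᶜ) (range χ) := image_univ ▸ hφ.hull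
  have gh := (dev_of hS.1).gh
  have G1 := l2.g1 _ _ gh
  have G2 := l2.g2 _ _ gh
  have sN : St N := ⟨h.st, h.vac⟩
  have st : St (res (sp δ (coef V)) O hO) := ⟨pl_spacetime hM.st, pl_vacuum hv⟩
  have fu : ∀ n, χ n ∈ Fu S (j '' {0}ᶜ) → n ∉ Ng i1 fun p => p.1 := fun n hn => by
    obtain ⟨_, s1, c, a1, rfl, rfl⟩ := (l3.side d hd _ _ _ _ com n trivial).2.1.2 hn
    exact ((crT h hl hM).fut a1 Subset.rfl zero_lt_one ((crT h hl hM).sub (sl ▸ s1))).1
  have pa : ∀ y : O, Real.log δ ≤ y.1.1 → χ (i2 y) ∉ Pa S (j '' {0}ᶜ) := fun y hy hn => by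
    obtain ⟨_, s1, c, a1, a2, rfl⟩ := (l3.side d hd _ _ _ _ com _ trivial).2.2.2 hn
    obtain ⟨x, x1, x2⟩ : c 1 ∈ Ze i1 fun p => p.1 := sl ▸ s1
    exact ((crB h hl hM).fut a1 Subset.rfl zero_lt_one (a2 ▸ h.notng.2 ⟨y, (t0 _).2 hy, rfl⟩)).1
      ⟨x, (hl.ne _ (h.sub x.2)).2 (le_of_eq x1), x2⟩
  have emb : IsOpenEmbedding (χ ∘ i2) := c1.comp h.e2
  have iso : IsIsom (M := res (sp δ (coef V)) O hO) (χ ∘ i2) :=
    P354V.isom_comp st.sp h.st gh.st.sp h.e2.continuous h.iso c2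
  have bd : ∀ y', ∃ c, ∀ q : O, Real.log δ ≤ q.1.1 → LL S (χ (i2 q)) y' → c ≤ q.1.2.1 := fun y' => by
    have K := G2.cpt y'
    have sub : {x | x ∉ Pa S (j '' {0}ᶜ) ∧ Le S x y'} ∩
        closure ((χ ∘ i2) '' {q | q.1.1 = Real.log δ}) ⊆ range (χ ∘ i2) := by
      rintro p ⟨p1, p2⟩
      have z : i2 '' {q | q.1.1 = Real.log δ} ⊆ Ze i1 ρ := by
        rintro _ ⟨q, q1, rfl⟩
        have q2 : uu δ q.1 + vv δ q.1 = 0 := (tau_eq δ q.1).trans (by
          rw [show q.1.1 = Real.log δ from q1, Real.exp_log d0, sub_self, mul_zero])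
        obtain ⟨x, hx⟩ := (h.out q).resolve_right q2.not_gt
        exact ⟨x, le_antisymm (not_lt.1 fun k => q2.not_gt (dis x q hx k))
          (not_lt.1 fun k => q2.not_lt ((h.dis x q hx).1 k)), hx⟩
      rw [image_comp] at p2
      obtain ⟨n, rfl⟩ : p ∈ range χ := by
        rcases G1.tri p with ⟨y, hy, rfl⟩ | k | k
        · exact ⟨_, c3 y hy⟩
        · exact noescape h hl hM gh.st G1 c1 c2 hu fu k (closure_mono (image_mono z) p2)
        · exact absurd k p1.1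
      have n1 : n ∈ closure (i2 '' {q | q.1.1 = Real.log δ}) := by
        rwa [c1.isInducing.closure_eq_preimage_closure_image]
      obtain ⟨y, -, rfl⟩ := h.notng.1 ((crB h hl hM).closed.closure_subset_iff.2
        (z.trans (crB h hl hM).sub) n1)
      exact ⟨y, rfl⟩
    obtain ⟨c, hc⟩ := (emb.isInducing.isCompact_preimage' (K.inter_right isClosed_closure)
      sub).bddBelow_image (f := fun q : O => q.1.2.1) (by fun_prop)
    refine ⟨c, fun q q1 q2 => ?_⟩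
    obtain ⟨p, p1, p2, p3⟩ := down hC hv hO (fun q k => h.m2 q ((t0 q).2 k))
      (K.isClosed.preimage emb.continuous) (fun a a1 b b1 k =>
        ⟨pa a a1, l1.le gh.st (b1.2.2 _ (ll_push st gh.st emb iso k))⟩)
      (q := q) ⟨pa q q1, l1.le gh.st q2⟩ q1
    exact p3 ▸ hc ⟨p, ⟨p1, subset_closure ⟨p, p2, rfl⟩⟩, rfl⟩
  have hκ := hk.pos
  have hQ : ∀ y ∈ ball ((0, 1, 0, 0) : R4) 1, y.1 < 0 → R κ y ∈ Qd 0 0 Th := fun y y1 y2 => by
    obtain ⟨a1, a2⟩ := mem_B.1 y1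
    simp only [mem_ball, Prod.dist_eq, max_lt_iff, Real.dist_eq, sub_zero, abs_lt] at a1 a2
    refine ⟨div_pos (neg_pos.2 (Real.log_neg (by linarith) (by linarith))) hκ,
      show 0 < y.2.1 by linarith, show y.2.2.1 ^ 2 + y.2.2.2 ^ 2 < 2 by nlinarith⟩
  obtain ⟨G', w, r, r1, w1, w2, w3, g1, g2⟩ := front hk E (fun x hx => hx.2.1.le) one_pos hQ
    (fun _ => rfl) fun _ => rfl
  have hQ' : ∀ y ∈ ball ((0, 1, 0, 0) : R4) r, y.1 < 0 → R κ y ∈ Qd 0 0 Th := fun y y1 =>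
    hQ y (ball_subset_ball r1 y1)
  have hD : ∀ y ∈ Qd 0 0 Th, y ∈ Dm δ := fun y hy =>
    ⟨by linarith [hy.1, hy.2.1], lt_trans hy.2.2 (by norm_num)⟩
  have lg0 : ∀ y ∈ Qd 0 0 Th, Real.log δ ≤ (sb δ true y).1 := fun y hy =>
    Real.log_le_log d0 (by linarith [hy.1, hy.2.1])
  let c := chU hκ δ isOpen_ball fun y y1 y2 => hD _ (hQ' y y1 y2)
  have q0 : O := ⟨jX δ 0, h.m2 _ ((t0 _).2 le_rfl)⟩
  have tg : ∀ y, y ∈ tgt (M := res (sp δ (coef V)) O hO) (c, q0) ↔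
      y ∈ ball ((0, 1, 0, 0) : R4) r ∧ y.1 < 0 := fun y =>
    pl_tgt.trans ⟨fun k => (tgt_eq (c := c)).subset k.1, fun k => ⟨(tgt_eq (c := c)).superset k,
      ⟨_, h.m2 _ ((t0 _).2 (lg0 _ (hQ' y k.1 k.2)))⟩, rfl⟩⟩
  have := hS.1.connected
  have := hS.1.countable
  have r0 : 0 < r := (norm_nonneg _).trans_lt w1
  refine ext_chart st gh.st emb iso (c, q0) isOpen_ball (convex_ball _ _).isPreconnected
    (fun y hy => ((tg y).1 hy).1) (G := G') (w := w) (fun y hy => ?_) (fun y hy => (g1 y hy).2.1)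
    (fun y hy => (g1 y hy).2.2) g2 (fun x z z1 z2 => ?_) (x := (0, 1, 0, 0) - w) ?_
    (fun t ht => (tg _).2 ⟨?_, ?_⟩) ?_
  · obtain ⟨y1, y2⟩ := (tg y).1 hy
    refine ⟨(g1 y y1).1 y2, ?_⟩
    have m := c.ξ.map_target ⟨y1, y2⟩
    have e4 := c.left m (X0 (coef V c.σ) (c.ξ.symm y))
    rw [c.ξ.right_inv ⟨y1, y2⟩] at e4
    change (sp δ (coef V)).g c y w ((sp δ (coef V)).X c y) < 0
    rw [g_eq, X_eq, e4, bil_X0, show fderiv ℝ c.ξ.symm y w = _ from fderiv_R hκ y2 w]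
    exact neg_lt_zero.2 (mul_pos (half_pos (hC.om _ _ (c.sub m)))
      (add_pos (mul_pos (rr_pos hκ _) w2) w3))
  · obtain ⟨y', hy'⟩ := closure_nonempty_iff.1 ⟨_, l1.b.nearF gh.st x⟩
    obtain ⟨b, hb⟩ := bd y'
    refine ⟨_, {y | em κ (2 - 2 * b) < y.1}, l1.opP gh.st y', isOpen_lt continuous_const
      continuous_fst, hy', (em_neg _ _).trans_le (not_lt.1 fun k => z2 ((tg z).2 ⟨z1, k⟩)),
      fun y y1 y2 y3 => ?_⟩
    obtain ⟨a1, a2⟩ := (tg y).1 y1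
    have e1 : (inv (M := res (sp δ (coef V)) O hO) (c, q0) y).1 = sb δ true (R κ y) := pl_inv y1
    have a3 := hb _ (e1 ▸ lg0 _ (hQ' y a1 a2)) y2
    rw [e1] at a3
    have a4 : 2 - 2 * b < lg κ y.1 := (em_mono hκ).lt_iff_lt.1 (by rwa [em_lg hκ a2])
    have a5 := (mem_B.1 (ball_subset_ball r1 a1)).2
    simp only [mem_ball, Prod.dist_eq, max_lt_iff, Real.dist_eq, abs_lt] at a5
    change b ≤ (y.2.1 - lg κ y.1) / 2 at a3
    linarith
  · simpa using r0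
  · rw [mem_ball_iff_norm, show (0, 1, 0, 0) - w + t • w - (0, 1, 0, 0) = (t - 1) • w by module,
      norm_smul, Real.norm_eq_abs, abs_of_neg (sub_neg.2 ht.2)]
    nlinarith [norm_nonneg w, ht.1]
  · change 0 - cu w + t * cu w < 0
    nlinarith [ht.2]
  · simp [tg]

end Vale.Agent.N354C
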