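import Vale.Agent.P354M53.Defs

open Set Topology

namespace Vale.Agent.N354C

open Vale.Agent.P354n (R4)
open Vale.Agent.P354M53 (Lor IsLor IsIso IsCurve)

/-- The map iota and the curve c form a future extension of S to N, whose metric has the
regularity Reg. -/
structure IsExtOf (Reg : (R4 → ℝ) → Set R4 → Prop) (S N : Lor) (ι : S.M → N.M) (c : ℝ → N.M) :
    Prop where
  spacetime : IsLor Reg N
  connected : ConnectedSpace N.M
  embedding : IsOpenEmbedding ι
  isometry : IsIso ι
  proper : range ι ≠ univ
  curve : IsCurve N (Icc 0 1) c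
  curve_mem : ∀ t ∈ Ico (0 : ℝ) 1, c t ∈ range ι
  curve_end : c 1 ∈ frontier (range ι)

end Vale.Agent.N354C
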