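import Vale.Agent.P354YG.Glu

/-! P354 (helper87): the glued development, without the clause on extensions (after P354YG). -/

set_option linter.all false

open scoped ContDiff
open Set Filter Topology

noncomputable section

namespace Vale.Agent.N354C

open Vale.Agent.P354n
open Vale.Agent.P354XJ (res one pl Span Glued gl2 pl_spacetime pl_vacuum pl_isom isom_to_pl
  isom_to_one one_sp one_vac one_on one_co Cross vel tm_pos bilin_of sign_of_deriv xs_cont xs_pt)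
open Vale.Agent.P354XE (Tw Lor Cut Low Tm Fc Ac Ind pt xs)
open Vale.Agent.P354XA (Bar)
open Vale.Agent.P354I (X Dat IsDev pd)
open Vale.Agent.P354YG

/-- A vacuum spacetime with a function τ, whose part τ ≥ 0 is connected and has no past
inextendible curves. -/
structure Inn0 (M : Spc) (τ : M.pt → ℝ) : Prop where
  st : IsSpacetime IsSmooth M
  sc : SecondCountableTopology M.pt
  vac : IsVacuum M
  cont : Continuous τ
  past : ∀ c, IsFutureCurve M 0 (Ioo 0 1) c → (∀ t ∈ Ioo (0 : ℝ) 1, 0 ≤ τ (c t)) →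
    ∃ x, Tendsto c (𝓝[>] 0) (𝓝 x)
  conn : IsPreconnected {p | 0 ≤ τ p}

section
open Vale.Agent.P354P

theorem inn_sp {δ : ℝ} {C : Bool → ℕ → R4 → ℝ} (h : IsDN δ C) (hv : IsVacuum (sp δ C)) :
    Inn0 (sp δ C) fun p : Pt => uu δ p + vv δ p where
  st := isSpacetime h
  sc := inferInstanceAs (SecondCountableTopology Pt)
  vac := hv
  cont := by unfold uu vv; fun_prop
  past a H k := by
    obtain ⟨mu, mv⟩ := uv_mono h H Subset.rfl
    have hn : ∀ t ∈ Ioo (0 : ℝ) 1, Ioo (0 : ℝ) 1 ∈ 𝓝 t := fun t ht => Ioo_mem_nhds ht.1 ht.2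
    have hc : ∀ t ∈ Ioo (0 : ℝ) 1, ContinuousAt a t := fun t ht => H.1.continuousAt (hn t ht)
    have m0 : (1 / 2 : ℝ) ∈ Ioo (0 : ℝ) 1 := by norm_num
    have a1 := le_abs_self (uu δ (a (1 / 2)))
    have a2 := neg_abs_le (uu δ (a (1 / 2)))
    have a3 := le_abs_self (vv δ (a (1 / 2)))
    have a4 := neg_abs_le (vv δ (a (1 / 2)))
    obtain ⟨x, hx⟩ := lim_of (b := fun s => a (1 - s)) (ε := -1) (m := 0)
      (A := |uu δ (a (1 / 2))| + |vv δ (a (1 / 2))|) h m0.2 (by norm_num) (neg_lt_zero.2 h.pos)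
      fun t ht => by
        have ht' : 1 - t ∈ Ioo (0 : ℝ) 1 := ⟨by linarith [ht.2], by linarith [ht.1]⟩
        have b1 := mu ht' m0 (by linarith [ht.1])
        have b2 := mv ht' m0 (by linarith [ht.1])
        have b3 := k _ ht'
        refine ⟨(hc _ ht').comp (f := fun s => 1 - s) (by fun_prop),
          abs_le.2 ⟨by linarith, by linarith⟩, abs_le.2 ⟨by linarith, by linarith⟩,
          by linarith, fun σ k' => ?_⟩
        obtain ⟨w, k3, k4⟩ := vel_of_curve h H (hn _ ht') k'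
        exact ⟨w, k3.scomp t ((hasDerivAt_id t).const_sub 1), k4⟩
    refine ⟨x, (hx.comp (f := fun s => 1 - s) ?_).congr fun s => congrArg a (sub_sub_cancel 1 s)⟩
    refine tendsto_nhdsWithin_iff.2 ⟨tendsto_nhdsWithin_of_tendsto_nhds ?_,
      eventually_nhdsWithin_of_forall fun s hs => by simpa using hs⟩
    simpa using (continuous_sub_left (1 : ℝ)).tendsto 0
  conn := by
    have e : {p : Pt | 0 ≤ uu δ p + vv δ p} = Ici (Real.log δ) ×ˢ univ := by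
      ext p
      simp only [mem_setOf_eq, uu, vv, mem_prod, mem_Ici, mem_univ, and_true,
        Real.log_le_iff_le_exp h.pos]
      constructor <;> intro k <;> linarith
    have : ConnectedSpace Pt := P354P.connected (δ := δ) (C := C)
    have k : IsPreconnected (univ : Set (ℝ × P354E.S2)) := by
      have := (isPreconnected_univ (α := Pt)).image Prod.snd continuous_snd.continuousOn
      rwa [image_univ, Prod.range_snd] at this
    exact e ▸ isPreconnected_Ici.prod k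
end

variable {D D1 : Set R4} {g : Tw} {Xf : R4 → R4} {ρ : R4 → ℝ} {J : X → R4} {M N : Spc}
  {τ : M.pt → ℝ} {O : Set M.pt} {hO : IsOpen O} {i1 : D1 → N.pt} {i2 : O → N.pt} {e : N.Chart}
  {d : Dat} {c : ℝ → N.pt}

theorem exists_gd0 (h : Cut D g Xf ρ J) (hM : Inn0 M τ) {ψ : O → D}
    (hc : Cl g Xf ρ J τ h.lor.isOpen hO ψ) :
    ∃ N D1 O2 hO2 i1 i2 e, Gd D g Xf ρ τ N D1 O2 hO2 i1 i2 e ∧
      ∀ x y, i1 x = i2 y → 0 < ρ x → 0 < τ y := by
  have hD := h.lor.isOpen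
  have ev : IsOpenEmbedding fun a => (ψ a).1 := hD.isOpenEmbedding_subtypeVal.comp hc.emb
  obtain ⟨D1, hD1⟩ : ∃ D1 : Set R4, D1 = (D ∩ ρ ⁻¹' Iio 0) ∪ range fun a => (ψ a).1 := ⟨_, rfl⟩
  have o1 : IsOpen D1 := hD1 ▸ (h.cont.isOpen_inter_preimage hD isOpen_Iio).union ev.isOpen_range
  have s1 : D1 ⊆ D := by
    rw [hD1]
    rintro p (k | ⟨a, rfl⟩)
    exacts [k.1, (ψ a).2]
  have m1 : ∀ a, (ψ a).1 ∈ D1 := fun a => hD1 ▸ Or.inr ⟨a, rfl⟩
  have c1 : ∀ x : D1, ρ x < 0 ∨ ∃ a, (ψ a).1 = x := fun x => by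
    rcases hD1.subset x.2 with k | k
    exacts [Or.inl k.2, Or.inr k]
  have o2 : IsOpen ({q | 0 < τ q} ∪ O) := (isOpen_lt continuous_const hM.cont).union hO
  have L1 := lor_mono h.lor o1 s1
  let κ1 : O → D1 := fun a => ⟨(ψ a).1, m1 a⟩
  let κ2 : O → ({q | 0 < τ q} ∪ O : Set M.pt) := inclusion subset_union_right
  have k1 : IsOpenEmbedding κ1 := .of_comp κ1 o1.isOpenEmbedding_subtypeVal ev
  have k2 : IsOpenEmbedding κ2 :=
    .of_comp κ2 o2.isOpenEmbedding_subtypeVal hO.isOpenEmbedding_subtypeVal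
  have sp : Span (A := res M O hO) (N1 := one D1 o1 g Xf) (N2 := res M _ o2) κ1 κ2 := by
    refine ⟨pl_spacetime hM.st, one_sp L1, pl_spacetime hM.st, k1, k2,
      isom_to_one.2 fun e y hy => isom_to_one.1 hc.iso e y hy,
      isom_to_pl (pl_isom (f := (Subtype.val : O → M.pt)) hM.st), ?_⟩
    refine isClosed_of_closure_subset fun (z : D1 × ({q | 0 < τ q} ∪ O : Set M.pt)) hz => ?_
    have ex : ∃ a, κ1 a = z.1 ∨ κ2 a = z.2 := by
      by_contra! k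
      have a1 : ρ z.1 < 0 := (c1 z.1).resolve_right fun ⟨a, ha⟩ => (k a).1 (Subtype.ext ha)
      have a2 : 0 < τ z.2 := z.2.2.resolve_right fun ha => (k ⟨_, ha⟩).2 rfl
      have q1 : ContinuousAt (fun w : D1 × ({q | 0 < τ q} ∪ O : Set M.pt) => ρ w.1) z :=
        (h.cont.continuousAt (hD.mem_nhds (s1 z.1.2))).comp (f := fun w : D1 ×
          ({q | 0 < τ q} ∪ O : Set M.pt) => w.1.1) (by fun_prop)
      have q2 : ContinuousAt (fun w : D1 × ({q | 0 < τ q} ∪ O : Set M.pt) => τ w.2) z :=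
        (hM.cont.comp (by fun_prop)).continuousAt
      have n1 := q1.eventually_lt_const a1
      have n2 := q2.eventually_const_lt a2
      obtain ⟨_, ⟨w1, w2⟩, a, rfl⟩ := mem_closure_iff_nhds.1 hz _ (n1.and n2)
      exact lt_asymm ((hc.sgn a).2.1 w1) w2
    have key : ∀ {Y Z : Type} [TopologicalSpace Y] [TopologicalSpace Z] [T2Space Z] (f : O → Y)
        (f' : O → Z), IsOpenEmbedding f → Continuous f' → ∀ (a : O) (z : Z),
        (f a, z) ∈ closure (range fun a => (f a, f' a)) → f' a = z := by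
      intro Y Z _ _ _ f f' hf hf' a z hz
      by_contra k
      obtain ⟨u, v, hu, hv, k1, k2, k3⟩ := t2_separation k
      obtain ⟨_, ⟨⟨b, b1, b2⟩, w2⟩, c, rfl⟩ := mem_closure_iff_nhds.1 hz _ (prod_mem_nhds
        (hf.isOpenMap.image_mem_nhds (hf'.continuousAt.preimage_mem_nhds (hu.mem_nhds k1)))
        (hv.mem_nhds k2))
      obtain rfl : b = c := hf.injective b2
      exact disjoint_left.1 k3 b1 w2
    obtain ⟨x, y⟩ := z
    obtain ⟨a, rfl | rfl⟩ := ex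
    · exact ⟨a, Prod.ext rfl (key κ1 κ2 k1 k2.continuous a y hz)⟩
    · refine ⟨a, Prod.ext (key κ2 κ1 k2 k1.continuous a x ?_) rfl⟩
      have := image_closure_subset_closure_image continuous_swap ⟨_, hz, rfl⟩
      rwa [← range_comp] at this
  obtain ⟨N, i1, i2, G⟩ := gl2 sp
  obtain ⟨a0, -⟩ := hc.onto (P354I.ee 0) (by simp [P354I.ee])
  obtain ⟨e, g1, g2, -, g3⟩ := G.chart1 (κ1 a0)
  have := hM.sc
  have : SecondCountableTopology (one D1 o1 g Xf).pt := inferInstanceAs (SecondCountableTopology D1)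
  have : SecondCountableTopology (res M _ o2).pt :=
    inferInstanceAs (SecondCountableTopology ({q | 0 < τ q} ∪ O : Set M.pt))
  refine ⟨N, D1, _, o2, i1, i2, e, ⟨G.s, G.vacuum (one_vac L1) (pl_vacuum hM.vac), G.countable, o1,
    s1, fun p hp k => ?_, fun q k => ?_, G.e1, G.e2, G.i2, g1, g2,
    fun x => ⟨(g3 x).1.2 (one_on _), (g3 x).2⟩, fun p => ?_, fun x y k => ?_, fun y => ?_⟩,
    fun x y k => ?_⟩
  · rcases k.eq_or_lt with k | k
    · obtain ⟨y, hy, rfl⟩ := (h.zero p hp).1 k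
      obtain ⟨a, ha⟩ := hc.onto y hy
      exact ha ▸ m1 a
    · exact hD1 ▸ Or.inl ⟨hp, k⟩
  · rcases k.eq_or_lt with k | k
    exacts [Or.inr (hc.zero q k.symm), Or.inl k]
  · have c : ∀ a : O, (∃ x : D1, ρ x < 0 ∧ i1 x = i1 (κ1 a)) ∨
        ∃ y : ({q | 0 < τ q} ∪ O : Set M.pt), 0 ≤ τ y ∧ i2 y = i1 (κ1 a) := fun a => by
      rcases lt_or_ge (τ a) 0 with k | k
      exacts [Or.inl ⟨κ1 a, (hc.sgn a).2.2 k, rfl⟩, Or.inr ⟨κ2 a, k, (G.comm a).symm⟩]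
    rcases G.cover p with ⟨x, rfl⟩ | ⟨y, rfl⟩
    · rcases c1 x with k | ⟨a, ha⟩
      · exact Or.inl ⟨x, k, rfl⟩
      · obtain rfl : κ1 a = x := Subtype.ext ha
        exact c a
    · rcases y.2 with k | k
      · exact Or.inr ⟨y, le_of_lt k, rfl⟩
      · exact (G.comm ⟨_, k⟩ : _ = i2 y) ▸ c ⟨_, k⟩
  · obtain ⟨a, rfl, rfl⟩ := (G.eq x y).1 k
    exact (hc.sgn a).2
  · rcases y.2 with k | k
    exacts [Or.inr k, Or.inl ⟨_, G.comm ⟨_, k⟩⟩]
  · obtain ⟨a, rfl, rfl⟩ := (G.eq x y).1 k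
    exact (hc.sgn a).1.1

variable (h : Gd D g Xf ρ τ N D1 O hO i1 i2 e)
include h

/-- Curves in the second part. -/
lemma lift0 (hM : Inn0 M τ) (hc : IsFutureCurve N 0 (Ioo 0 1) c)
    (hm : ∀ t ∈ Ioo (0 : ℝ) 1, c t ∉ Ng i1 ρ) : ∃ b : ℝ → O, IsFutureCurve M 0 (Ioo 0 1)
      (fun t => (b t).1) ∧ (∀ t ∈ Ioo (0 : ℝ) 1, i2 (b t) = c t ∧ 0 ≤ τ (b t)) ∧
      ∀ l : Filter ℝ, l.NeBot → Ioo 0 1 ∈ l → ∀ x, Tendsto (fun t => (b t).1) l (𝓝 x) →
        ∃ y, Tendsto c l (𝓝 y) := by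
  obtain ⟨b, b1, b2⟩ := cv_lift (M := res M O hO) (pl_spacetime hM.st) h.st h.e2 h.iso
    isOpen_Ioo.uniqueDiffOn ⟨1 / 2, by norm_num⟩ hc fun t ht =>
      let ⟨y, _, k⟩ := h.notng.1 (hm t ht); ⟨y, k⟩
  have b3 : ∀ t ∈ Ioo (0 : ℝ) 1, 0 ≤ τ (b t).1 := fun t ht => by
    obtain ⟨y, y1, y2⟩ := h.notng.1 (hm t ht)
    rwa [h.e2.injective (y2.trans (b2 t ht).symm)] at y1
  refine ⟨b, cv_push (M := res M O hO) (pl_spacetime hM.st) hM.st hO.isOpenEmbedding_subtypeVal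
    (pl_isom hM.st) isOpen_Ioo.uniqueDiffOn b1, fun t ht => ⟨b2 t ht, b3 t ht⟩,
    fun l _ hl x hx => ?_⟩
  have x0 : 0 ≤ τ x := ge_of_tendsto ((hM.cont.tendsto x).comp hx) (mem_of_superset hl b3)
  exact ⟨i2 ⟨x, h.m2 x x0⟩, ((h.e2.continuous.tendsto _).comp
    (tendsto_subtype_rng.2 hx)).congr' (mem_of_superset hl b2)⟩

variable (hl : Low d D g Xf ρ J) (hM : Inn0 M τ)
include hl hM

lemma crT : Cross N (Ng i1 fun p => p.1)ᶜ (Ze i1 fun p => p.1) :=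
  h.cross hl.cut.lor hM.cont continuous_fst.continuousOn (fun p hp k => by
    have := (hl.mem _ (hl.ne p hp).1).2
    rwa [show pt 0 (xs p) = p from Prod.ext k.symm rfl] at this) fun p hp k => (hl.ne p hp).2 k.le

lemma crB : Cross N (Ng i1 ρ)ᶜ (Ze i1 ρ) :=
  h.cross hl.cut.lor hM.cont hl.cut.cont (fun p hp k => by
    obtain ⟨y, hy, rfl⟩ := (hl.cut.zero p hp).1 k
    exact (hl.cut.mem y hy).2) fun _ _ k => k

theorem bar : Bar N (Ng i1 fun p => p.1)ᶜ := by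
  refine (crT h hl hM).bar (fun c hc k => ?_) fun c hc k => ?_
  · by_contra! k1
    by_cases k2 : ∀ t ∈ Ioo (0 : ℝ) 1, c t ∉ Ng i1 ρ
    · obtain ⟨b, b1, b2, b3⟩ := lift0 h hM hc k2
      obtain ⟨x, hx⟩ := hM.past _ b1 fun t ht => (b2 t ht).2
      obtain ⟨y, hy⟩ := b3 _ inferInstance (Ioo_mem_nhdsGT zero_lt_one) x hx
      exact k y hy
    push Not at k2
    obtain ⟨l, l1, l2⟩ := k2
    obtain ⟨a1, a2, a3⟩ := cv_init h.st (Ioo_subset_Ioc_self l1) hc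
    have m : ∀ t ∈ Ioo (0 : ℝ) 1, ∃ x : D1, x.1 ∈ {p ∈ D | ρ p < 0 ∧ 0 ≤ p.1} ∧
        i1 x = c (0 + t * l) := fun t ht => by
      have m := a2 t ht
      obtain ⟨x, x1, x2⟩ : c (0 + t * l) ∈ Ng i1 ρ := by
        by_contra k3
        exact ((crB h hl hM).fut hc (fun u hu => ⟨m.1.trans_le hu.1, hu.2.trans_lt l1.2⟩) m.2
          k3).1 l2
      exact ⟨x, ⟨h.sub x.2, x1, not_lt.1 fun k3 =>
        k1 _ ⟨m.1, m.2.trans l1.2⟩ (x2 ▸ h.ng.2 k3)⟩, x2⟩
    have F := h.fc a1 m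
    obtain ⟨x, x1, x2⟩ := hl.past _ F
    have x3 : ρ x ≤ 0 := le_of_tendsto ((hl.cut.cont.continuousAt
      (hl.cut.lor.isOpen.mem_nhds x1)).tendsto.comp x2)
      (mem_of_superset (Ioo_mem_nhdsGT zero_lt_one) fun t ht => (F t ht).1.2.1.le)
    exact k _ (a3 _ (h.tend (mem_of_superset (Ioo_mem_nhdsGT zero_lt_one) fun t ht =>
      let ⟨x, _, k⟩ := m t ht; ⟨x, k⟩) (h.m1 x x1 x3) x2))
  · by_contra! k1
    have m : ∀ t ∈ Ioo (0 : ℝ) 1, ∃ x : D1, x.1 ∈ {p ∈ D | p.1 < 0} ∧ i1 x = c t := fun t ht =>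
      let ⟨x, x1, x2⟩ := not_not.1 (k1 t ht); ⟨x, ⟨h.sub x.2, x1⟩, x2⟩
    have F := h.fc hc m
    obtain ⟨x, x1, x2⟩ := hl.fut _ F
    have x3 : x.1 ≤ 0 := le_of_tendsto ((continuous_fst.tendsto x).comp x2)
      (mem_of_superset (Ioo_mem_nhdsLT zero_lt_one) fun t ht => (F t ht).1.2.le)
    exact k _ (h.tend (mem_of_superset (Ioo_mem_nhdsLT zero_lt_one) fun t ht =>
      let ⟨x, _, k⟩ := m t ht; ⟨x, k⟩) (h.m1 x x1 ((hl.ne x x1).2 x3).le) x2)

theorem conn : ConnectedSpace N.pt := by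
  have y0 : P354I.ee 0 ≠ 0 := by simp [P354I.ee]
  obtain ⟨p1, p2⟩ := hl.cut.mem _ y0
  have p3 := (hl.cut.zero _ p1).2 ⟨_, y0, rfl⟩
  have p4 := h.m1 _ p1 p3.le
  have c1 : IsPreconnected (Ng i1 ρ) := by
    refine IsPreconnected.image ?_ _ h.e1.continuous.continuousOn
    rw [← IsInducing.subtypeVal.isPreconnected_image]
    have : (Subtype.val '' {x : D1 | ρ x < 0}) = {p ∈ D | ρ p < 0} :=
      Subset.antisymm (by rintro _ ⟨x, k, rfl⟩; exact ⟨h.sub x.2, k⟩)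
        fun p hp => ⟨⟨p, h.m1 p hp.1 hp.2.le⟩, hp.2, rfl⟩
    exact this ▸ hl.conn
  have c2 : IsPreconnected (Ng i1 ρ)ᶜ := by
    rw [show (Ng i1 ρ)ᶜ = i2 '' {y | 0 ≤ τ y} from Set.ext fun p => h.notng]
    refine IsPreconnected.image ?_ _ h.e2.continuous.continuousOn
    rw [← IsInducing.subtypeVal.isPreconnected_image]
    have : (Subtype.val '' {y : O | 0 ≤ τ y}) = {p | 0 ≤ τ p} :=
      Subset.antisymm (by rintro _ ⟨x, k, rfl⟩; exact k) fun p hp => ⟨⟨p, h.m2 p hp⟩, hp, rfl⟩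
    exact this ▸ hM.conn
  have c3 : i1 ⟨_, p4⟩ ∈ closure (Ng i1 ρ) := by
    refine image_closure_subset_closure_image h.e1.continuous ⟨⟨_, p4⟩, ?_, rfl⟩
    have l1 : HasDerivAt (fun s : ℝ => J (P354I.ee 0) + s • Xf (J (P354I.ee 0)))
        (Xf (J (P354I.ee 0))) 0 := by
      simpa using ((hasDerivAt_id (0 : ℝ)).smul_const (Xf (J (P354I.ee 0)))).const_add
        (J (P354I.ee 0))
    have l2 := (p2.1.differentiableAt one_ne_zero).hasFDerivAt.comp_hasDerivAt_of_eq 0 l1 (by simp)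
    have l3 := (sign_of_deriv (I := univ) l2.hasDerivWithinAt p2.2.1 (by simpa using p3)).2
    rw [univ_inter] at l3
    have l4 : Tendsto (fun s : ℝ => J (P354I.ee 0) + s • Xf (J (P354I.ee 0))) (𝓝[<] 0)
        (𝓝 (J (P354I.ee 0))) := by
      simpa using l1.continuousAt.tendsto.mono_left (nhdsWithin_le_nhds (s := Iio 0))
    rw [IsInducing.subtypeVal.closure_eq_preimage_closure_image]
    refine mem_closure_of_tendsto l4 ?_
    filter_upwards [l3, l4 (h.o1.mem_nhds p4)] with s s1 s2 using ⟨⟨_, s2⟩, s1, rfl⟩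
  have c4 := (c1.subset_closure subset_closure Subset.rfl).union _ c3
    (show _ ∈ (Ng i1 ρ)ᶜ from fun k => (h.ng.1 k).ne p3) c2
  rw [eq_univ_of_univ_subset ((union_compl_self _).symm.subset.trans
    (union_subset_union_left _ subset_closure))] at c4
  exact { toPreconnectedSpace := ⟨c4⟩, toNonempty := ⟨i1 ⟨_, p4⟩⟩ }

theorem dev : ∃ j, IsDev d N j ∧ j '' {0}ᶜ = Ze i1 fun p => p.1 := by
  classical
  have m : ∀ y ≠ 0, pt 0 y ∈ D1 := fun y hy =>
    h.m1 _ (hl.mem y hy).1 ((hl.ne _ (hl.mem y hy).1).2 le_rfl).le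
  have y0 : P354I.ee 0 ≠ 0 := by simp [P354I.ee]
  obtain ⟨j, hj⟩ : ∃ j : X → N.pt, ∀ y (k : y ≠ 0), j y = i1 ⟨_, m y k⟩ :=
    ⟨fun y => if k : y = 0 then i1 ⟨_, m _ y0⟩ else i1 ⟨_, m y k⟩, fun y k => dif_neg k⟩
  have cp : ContDiff ℝ ∞ (pt 0) := by unfold pt; fun_prop
  have sl : j '' {0}ᶜ = Ze i1 fun p => p.1 := by
    refine Subset.antisymm ?_ ?_
    · rintro _ ⟨y, hy, rfl⟩
      exact ⟨_, rfl, (hj y hy).symm⟩
    · rintro _ ⟨x, hx, rfl⟩
      have k := (hl.ne _ (h.sub x.2)).1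
      exact ⟨_, k, (hj _ k).trans (congrArg i1 (Subtype.ext (Prod.ext (Eq.symm hx) rfl)))⟩
  refine ⟨j, ⟨h.st, conn h hl hM, h.sc, h.vac, ?_, fun c c1 c2 => ?_, fun y hy => ?_⟩, sl⟩
  · rw [show (fun y : ({0}ᶜ : Set X) => j y) = i1 ∘ fun y : ({0}ᶜ : Set X) => ⟨_, m y.1 y.2⟩ from
      funext fun y => hj y.1 y.2]
    exact h.e1.isEmbedding.comp (IsEmbedding.codRestrict ((Function.LeftInverse.isEmbedding
      (xs_pt 0) xs_cont cp.continuous).comp .subtypeVal) _ _)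
  · rw [sl]
    exact (crT h hl hM).cauchy (bar h hl hM) c c1 c2
  · obtain ⟨G, n, g1, g2, g3, g4⟩ := hl.ind y hy
    have ev : ∀ y ≠ 0, (fun z => co e (j z)) =ᶠ[𝓝 y] pt 0 := fun y hy =>
      (eventually_ne_nhds hy).mono fun z hz => by
        show co e (j z) = _
        rw [hj z hz, (h.on _).2]
    have e1 : ∀ y ≠ 0, ∀ i, pd i (fun z => co e (j z)) y = pd i (pt 0) y := fun y hy i => by
      rw [pd, pd, (ev y hy).fderiv_eq]
    have e2 : ∀ i k, pd i (pd k fun z => co e (j z)) y = pd i (pd k (pt 0)) y := fun i k => by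
      rw [pd, pd, EventuallyEq.fderiv_eq ((eventually_ne_nhds hy).mono
        fun z hz => e1 z hz k)]
    refine ⟨e, _, G, n, rfl, hj y hy ▸ (h.on _).1, cp.contDiffAt.congr_of_eventuallyEq (ev y hy),
      ?_⟩
    simp only [e1 y hy, e2, (ev y hy).self_of_nhds, h.eg, h.eX]
    exact ⟨g1, g2, g3, g4⟩

end Vale.Agent.N354C
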