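import Vale.Agent.N354.Ext
import Vale.Agent.N354C.Defs

/-! P354 (helper87): from the chart description to manifolds of Mathlib, for metrics of low
regularity (copy of P354M53.B2). -/

open scoped ContDiff Manifold
open Set Filter Topology

namespace Vale.Agent.N354C

open Vale.Agent.P354n (R4 Spc IsIsom IsSpacetime IsFutureCurve mink IsSmooth On tgt inv
  IsFutureExtension IsC0W1)
open Vale.Agent.P354M53 (ch ch_mem ch_tgt charts cone Lor I4 gg md co ct IsLor IsIso chart_deriv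
  md_symm_md cont_md_symm md_ct isCurve_iff)

variable {N : Spc} {Reg : (R4 → ℝ) → Set R4 → Prop}

theorem man (hN : IsSpacetime Reg N) : @IsManifold ℝ _ R4 _ _ R4 _ I4 ∞ N.pt _ (charts N) := by
  let := charts N
  refine isManifold_of_contDiffOn I4 ∞ N.pt ?_
  rintro _ _ ⟨e, rfl⟩ ⟨e', rfl⟩ y hy
  exact (hN.tensor e e' _ rfl y hy.1.1 hy.1.2).1.contDiffWithinAt

/-- The manifold with the metric of N and the field T. -/
noncomputable def lor0 (hN : IsSpacetime Reg N) (T : N.pt → R4) : Lor where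
  M := N.pt
  charts := charts N
  manifold := man hN
  g x := (LinearMap.mk₂ ℝ (N.g (ch N x) (N.toE (ch N x) x))
    (hN.up.bilin _ (ch_tgt x)).add_left (hN.up.bilin _ (ch_tgt x)).smul_left
    (hN.up.bilin _ (ch_tgt x)).add_right (hN.up.bilin _ (ch_tgt x)).smul_right :
    R4 →ₗ[ℝ] R4 →ₗ[ℝ] ℝ)
  T := T

variable {hN : IsSpacetime Reg N} {T : N.pt → R4}

theorem gg_lor0 (x : N.pt) (a b : R4) :
    gg (lor0 hN T) x a b = N.g (ch N x) (N.toE (ch N x) x) a b := rfl

theorem mem_atlas (e : N.Chart) : N.toE e ∈ atlas R4 (lor0 hN T).M := mem_range_self e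

theorem md_lor0 (e : N.Chart) {y : R4} (hy : y ∈ tgt e) (a : R4) :
    md (M' := (lor0 hN T).M) (N.toE e).symm y a =
      lineDeriv ℝ (fun z => N.toE (ch N (inv e y)) (inv e z)) y a := by
  have k := chart_deriv (M := (lor0 hN T).M) (M' := (lor0 hN T).M) (f := id) (mem_atlas e)
    (mem_atlas (ch N (inv e y))) hy (ch_mem (inv e y)) contMDiffAt_id a
  have k1 : ∀ (x : (lor0 hN T).M) a, md (id : (lor0 hN T).M → (lor0 hN T).M) x a = a :=
    fun x a => congrArg (fun L => L a) (mfderiv_id (I := I4) (x := x))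
  have k2 : ∀ (x : (lor0 hN T).M) a, md (M := (lor0 hN T).M) (N.toE (ch N x)) x a = a :=
    fun x a => congrArg (fun L => L a) (mfderiv_extChartAt_self (I := I4) (x := x))
  have k3 : ∀ (x : (lor0 hN T).M) a,
      md (M' := (lor0 hN T).M) (N.toE (ch N x)).symm (N.toE (ch N x) x) a = a := fun x a => by
    exact (congrArg _ (k2 x a)).symm.trans
      (md_symm_md (M := (lor0 hN T).M) (mem_atlas (ch N x)) (ch_mem x) a)
  exact (k1 _ _).symm.trans (k.symm.trans (k3 _ _))

theorem co_lor0 (e : N.Chart) {y : R4} (hy : y ∈ tgt e) :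
    co (S := lor0 hN T) (N.toE e) y = N.g e y := by
  funext a b
  have k := (hN.tensor e (ch N (inv e y)) _ rfl y hy (ch_mem _)).2.1 a b
  exact (congrArg₂ (gg (lor0 hN T) (inv e y)) (md_lor0 e hy a) (md_lor0 e hy b)).trans k.symm

theorem cone_lt (hN : IsSpacetime Reg N) {x : N.pt} {u v : R4} (hu : u ∈ cone N x)
    (hv : v ∈ cone N x) : N.g (ch N x) (N.toE (ch N x) x) u v < 0 :=
  hN.up.same_cone _ (ch_tgt x) (hN.timelike _ _ (ch_tgt x)) hu.1 hu.2 hv.1.le hv.2

theorem cone_convex (hN : IsSpacetime Reg N) (x : N.pt) : Convex ℝ (cone N x) := by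
  intro u hu v hv a b ha hb hab
  have B : P354.Bilin (N.g (ch N x) (N.toE (ch N x) x)) := hN.up.bilin _ (ch_tgt x)
  have h1 := cone_lt hN hu hv
  have h2 := cone_lt hN hv hu
  obtain ⟨h3, h4⟩ := hu
  obtain ⟨h5, h6⟩ := hv
  have pos : ∀ {p q : ℝ}, p < 0 → q < 0 → a * p + b * q < 0 := fun {p q} hp hq => by
    rcases ha.eq_or_lt with k | k
    · have : b = 1 := by linarith
      rw [← k, this]; linarith
    · nlinarith [mul_pos k (neg_pos.2 hp), mul_nonneg hb (neg_pos.2 hq).le]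
  refine ⟨?_, ?_⟩
  · simp only [B.add_left, B.add_right, B.smul_left, B.smul_right]
    have := pos (pos h3 h1) (pos h2 h5)
    linarith
  · simp only [B.add_left, B.smul_left]
    exact pos h4 h6

theorem md_mem_cone (e : N.Chart) {y : R4} (hy : y ∈ tgt e) :
    md (M' := (lor0 hN T).M) (N.toE e).symm y (N.X e y) ∈ cone N (inv e y) := by
  obtain ⟨-, k1, k2⟩ := hN.tensor e (ch N (inv e y)) _ rfl y hy (ch_mem _)
  rw [md_lor0 e hy]
  exact ⟨(k1 _ _).symm.trans_lt (hN.timelike e y hy), k2⟩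

theorem exists_T (hN : IsSpacetime Reg N) [SecondCountableTopology N.pt] :
    ∃ T : N.pt → R4, (Continuous fun x : (lor0 hN 0).M =>
      (⟨x, T x⟩ : TangentBundle I4 (lor0 hN 0).M)) ∧ ∀ x, T x ∈ cone N x := by
  have : SecondCountableTopology (lor0 hN 0).M := ‹SecondCountableTopology N.pt›
  have : LocallyCompactSpace (lor0 hN 0).M := ChartedSpace.locallyCompactSpace R4 _
  obtain ⟨s, hs⟩ := exists_contMDiffSection_forall_mem_convex_of_local (n := 0) I4
    (F_fiber := R4) (TangentSpace I4 (M := (lor0 hN 0).M)) (cone N) (cone_convex hN) fun x₀ => by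
      refine ⟨(N.toE (ch N x₀)).source, (N.toE _).open_source.mem_nhds (ch_mem x₀),
        fun x => md (M' := (lor0 hN 0).M) (N.toE (ch N x₀)).symm (N.toE (ch N x₀) x)
          (N.X (ch N x₀) (N.toE (ch N x₀) x)), ?_, fun x hx => ?_⟩
      · exact contMDiffOn_zero_iff.2
          (cont_md_symm (M := (lor0 hN 0).M) (mem_atlas (ch N x₀)) (hN.continuous _))
      · have k := md_mem_cone (hN := hN) (T := 0) (ch N x₀) ((N.toE _).map_source hx)
        rwa [show inv (ch N x₀) (N.toE (ch N x₀) x) = x from (N.toE _).left_inv hx] at k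
  exact ⟨s, s.contMDiff.continuous, hs⟩

theorem isLor_lor0 (hR : ∀ f g D, IsOpen D → EqOn g f D → Reg f D → Reg g D) (hc : Continuous fun x : (lor0 hN 0).M =>
    (⟨x, T x⟩ : TangentBundle I4 (lor0 hN 0).M)) (hT : ∀ x, T x ∈ cone N x) :
    IsLor Reg (lor0 hN T) where
  signature x := by
    obtain ⟨L, hL⟩ := hN.up.sig _ (ch_tgt x)
    exact ⟨L, ⟨L.map_add, L.map_smul⟩, L.bijective, hL⟩
  timelike x := (hT x).1
  continuous := hc
  regular := by
    rintro _ ⟨e, rfl⟩ a b
    exact hR _ _ _ (N.toE e).open_target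
      (fun y hy => congrFun (congrFun (co_lor0 e hy) a) b) (hN.regular e a b)

theorem ct_lt (hT : ∀ x, T x ∈ cone N x) (e : N.Chart) {y : R4} (hy : y ∈ tgt e) :
    N.g e y (ct (S := lor0 hN T) (N.toE e) y) (ct (S := lor0 hN T) (N.toE e) y) < 0 ∧
    N.g e y (ct (S := lor0 hN T) (N.toE e) y) (N.X e y) < 0 := by
  rw [← co_lor0 (hN := hN) (T := T) e hy]
  have k := md_ct (S := lor0 hN T) (mem_atlas e) hy
  refine ⟨?_, ?_⟩
  · exact (congrArg₂ (gg (lor0 hN T) (inv e y)) k k).trans_lt (hT _).1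
  · exact (congrArg₂ (gg (lor0 hN T) (inv e y)) k rfl).trans_lt
      (cone_lt hN (hT _) (md_mem_cone e hy))

theorem fut_iff (hT : ∀ x, T x ∈ cone N x) (e : N.Chart) {y : R4} (hy : y ∈ tgt e) {w : R4}
    (hw : N.g e y w w < 0) :
    N.g e y w (ct (S := lor0 hN T) (N.toE e) y) < 0 ↔ N.g e y w (N.X e y) < 0 := by
  obtain ⟨k1, k2⟩ := ct_lt (hN := hN) hT e hy
  have k3 := hN.timelike e y hy
  exact ⟨fun h => hN.up.same_cone e hy k1 hw h k3.le ((hN.up.symm e hy _ _).trans_lt k2),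
    fun h => hN.up.same_cone e hy k3 hw h k1.le k2⟩

theorem isom_to (hT : ∀ x, T x ∈ cone N x) : IsIsom (M := N) (N := (lor0 hN T).spc) id := by
  rintro e ⟨_, e', rfl⟩ F rfl y hy hy'
  obtain ⟨a1, a2, a3⟩ := hN.tensor e e' _ rfl y hy hy'
  have m : N.toE e' (inv e y) ∈ tgt e' := (N.toE e').map_source hy'
  have k := co_lor0 (hN := hN) (T := T) e' m
  refine ⟨a1, fun a b => (a2 a b).trans (congrFun (congrFun k _) _).symm, ?_⟩
  exact (congrFun (congrFun k _) _).trans_lt
    ((fut_iff hT e' m ((a2 _ _).symm.trans_lt (hN.timelike e y hy))).2 a3)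

theorem weak {M : Spc} (h : IsSpacetime Reg M) : IsSpacetime (fun _ _ => True) M :=
  ⟨h.tensor, h.signature, h.timelike, h.continuous, fun _ _ _ => trivial⟩

theorem curve_to (hT : ∀ x, T x ∈ cone N x) {I : Set ℝ} {c : ℝ → N.pt}
    (h : IsFutureCurve N 0 I c) : IsFutureCurve (lor0 hN T).spc 0 I c := by
  refine ⟨h.1, ?_⟩
  rintro t ht ⟨_, e, rfl⟩ he
  obtain ⟨a1, a2⟩ := h.2 t ht e he
  refine ⟨a1, ?_⟩
  rintro y w rfl rfl
  obtain ⟨a3, a4⟩ := a2 _ _ rfl rfl
  have m : N.toE e (c t) ∈ tgt e := (N.toE e).map_source he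
  have k := co_lor0 (hN := hN) (T := T) e m
  exact ⟨(congrFun (congrFun k _) _).trans_lt a3, (congrFun (congrFun k _) _).trans_lt
    ((fut_iff hT e m (a3.trans_eq neg_zero)).2 a4)⟩

/-- A future extension in the chart description is one of manifolds. -/
theorem ext_of (hR : ∀ f g D, IsOpen D → EqOn g f D → Reg f D → Reg g D) {S : Lor}
    (hS : IsLor IsSmooth S) {ι : S.M → N.pt} {c : ℝ → N.pt}
    (h : IsFutureExtension Reg S.spc N ι c) [hc : ConnectedSpace N.pt]
    [SecondCountableTopology N.pt] : ∃ N' ι' c', IsExtOf Reg S N' ι' c' := by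
  obtain ⟨T, h1, h2⟩ := exists_T h.spacetime
  have k := isLor_lor0 (hN := h.spacetime) hR h1 h2
  exact ⟨lor0 h.spacetime T, ι, c, k, hc, h.embedding, IsIso.of h.embedding.continuous
    (P354V.isom_comp (weak hS.spacetime) (weak h.spacetime) k.spacetime h.embedding.continuous
      h.isometry (isom_to h2)), h.proper,
    (isCurve_iff (uniqueDiffOn_Icc zero_lt_one)).2 (curve_to h2 h.curve), h.curve_mem,
    h.curve_end⟩

theorem c0w1_congr {p : ENNReal} (f g : R4 → ℝ) (D : Set R4) (hD : IsOpen D) (h : EqOn g f D)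
    (k : IsC0W1 p f D) : IsC0W1 p g D := by
  refine ⟨k.1.congr h, fun a => ?_⟩
  obtain ⟨u, h1, h2⟩ := k.2 a
  refine ⟨u, h1, fun φ a1 a2 a3 => ?_⟩
  rw [← h2 φ a1 a2 a3]
  refine MeasureTheory.integral_congr_ae (Eventually.of_forall fun x => ?_)
  by_cases hx : x ∈ D
  · simp only [h hx]
  · have e : φ =ᶠ[𝓝 x] fun _ => 0 := notMem_tsupport_iff_eventuallyEq.1 fun j => hx (a3 j)
    have : P354n.deriv φ x a = 0 := by
      unfold P354n.deriv
      rw [e.lineDeriv_eq]
      simp [lineDeriv]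
    simp only [this, mul_zero]

end Vale.Agent.N354C
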