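import Vale.Agent.P354ZZ.Top
import Vale.Agent.N354C.Bound

/-! P354 (helper87): the choice of the constants. The three proofs follow `P354YV.core`,
`P354XE.gt_of` and `P354YM.q1_of`, without the game. -/

open scoped ContDiff ENNReal
open Set Filter Topology

noncomputable section

namespace Vale.Agent.N354C

open Vale.Agent.P354n (R4 Spc IsFutureExtension IsC0W1)
open Vale.Agent.P354C (Ix)
open Vale.Agent.P354I (X Dat P3 IsKF IsCh KI glue Con pm mix Th rm rp)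
open Vale.Agent.P354J (Ud PDy)
open Vale.Agent.P354P (Glob coef)
open Vale.Agent.P354L (Wt Est Qd)
open Vale.Agent.P354Z (IsMGHD)
open Vale.Agent.P354XS (DA BA qm ds)
open Vale.Agent.P354XE
open Vale.Agent.P354YM
open Metric (ball ball_subset_ball)

/-- The interior solution exists globally and satisfies the estimates, for all data near the
family. -/
theorem int0 {p0 : P3} {k ε0 δ1 s : ℝ} {C : ℕ → ℝ} {K : P3 → ℝ → Bool → R4 → Ix → ℝ}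
    {kd : P3 → ℝ → Dat} (h : IsKF p0 k ε0 δ1 C K kd) (hs : 1 < s) :
    ∃ T ≥ 0, ∃ η > 0, ∃ ε > 0, ∀ p ∈ ball p0 ε, ∀ q ∈ ball p0 ε, ∀ d, PDy d → Con d →
      pm s 11 d (mix (kd p T) (kd q T)) < ENNReal.ofReal η →
      ∃ δ V κ k', Glob d δ V ∧ Wt κ k' ∧ Est κ k' (Qd 0 0 Th) (coef V true) := by
  obtain ⟨hk, e0, d1, _⟩ := h.pos
  have s0 : 0 ≤ s := by linarith
  obtain ⟨a, A, A0, c, ha, has, hac⟩ := P354AY.wt k s hk hs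
  obtain ⟨C', hR⟩ := P354SR.src _ _ _ _ _ _ _ h
  obtain ⟨μ2, h2, cb, hS⟩ := P354SR.solve2' k s a A A0 C' hk hs ha has fun y => (hac y).1
  obtain ⟨μ3, h3, cb', hF⟩ := P354QF.full2 k a A A0 cb C' hk ha
  obtain ⟨μ7, h7, hC⟩ := P354P.compat P354Q.vac P354Q.conv P354CU.uni P354J.sl1 P354J.sl2
    P354J.dslThm P354J.uq P354J.fu P354J.ind k a A A0 cb' hk ha
  obtain ⟨μ6, h6, hq⟩ := P354DG.small (B := |C' 5|) h7
  obtain ⟨μ, h0, l1, l2, l3, l6, l7⟩ :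
      ∃ μ > 0, μ ≤ δ1 ∧ μ ≤ μ2 ∧ μ ≤ μ3 ∧ μ ≤ μ6 ^ 2 ∧ μ ≤ μ7 :=
    ⟨min δ1 (min μ2 (min μ3 (min (μ6 ^ 2) μ7))), by positivity, by simp, by simp,
      by simp, by simp, by simp⟩
  have a1 : Tendsto (fun T : ℝ => Real.exp (-k * T)) atTop (𝓝 0) :=
    Real.tendsto_exp_atBot.comp (tendsto_id.const_mul_atTop_of_neg (by linarith))
  obtain ⟨T0, hT0⟩ := eventually_atTop.1 (a1.eventually (gt_mem_nhds h0))
  obtain ⟨T, t0, hT⟩ : ∃ T ≥ 0, T0 ≤ T := ⟨max T0 0, le_max_right _ _, le_max_left _ _⟩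
  have hρ' := (hT0 T hT).le
  have hρ := Real.exp_pos (-k * T)
  obtain ⟨ε1, e1, hS⟩ := hS μ h0
  obtain ⟨εa, ea, hR⟩ := hR 12 ε1 e1
  obtain ⟨η, hη, εb, eb, hN⟩ := P354YV.near3 P354M2.mixThm h s0 t0 9 e1
  have hS := hS μ ⟨h0, l2⟩ _ ⟨hρ, hρ'.trans l2⟩ δ1
  refine ⟨T, t0, η, hη, min εa εb, lt_min ea eb, fun p hp q hq' d hd hd' hm => ?_⟩
  have ma : ball p0 (min εa εb) ⊆ ball p0 εa := ball_subset_ball (by simp)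
  have mb : ball p0 (min εa εb) ⊆ ball p0 εb := ball_subset_ball (by simp)
  have hB := hR p (ma hp) q (ma hq') T t0
  have hN := hN p (mb hp) q (mb hq') d hd hd' hm
  choose W hW using fun σ => hS _ _ (hB σ) _ (hN σ).2
  have hH : ∀ σ, IsCh k a μ (C' 5 * √(Real.exp (-k * T))) μ cb' (Ud d σ)
      (KI (K p T σ) (K q T σ) + glue (W σ)) := fun σ =>
    hF _ ⟨hρ, hρ'.trans l3⟩ μ ⟨h0, l3⟩ μ ⟨h0, l3⟩ _ _ _ _ _ _ _ l1 (hB σ) (hN σ).1 (hW σ)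
  have q1 := (hq _ (Real.sqrt_nonneg _) (Real.sqrt_le_iff.2 ⟨h6.le, hρ'.trans l6⟩)).2
  exact ⟨μ, _, _, _, hC μ ⟨h0.le, l7⟩ _ ⟨P354YV.bs_nonneg (hB true) 5,
    (mul_le_mul_of_nonneg_right (le_abs_self _) (Real.sqrt_nonneg _)).trans q1⟩ μ ⟨h0, l7⟩ d _ hd hH,
    P354M.kap_wt hk ha, P354M.Ctx.est ⟨hk, ha, (hN true).1, hH true, h0, by linarith⟩⟩

/-- The causal structure below a slice. -/
theorem gt0 {M a r1 r0 r2 s δ : ℝ} (hB : Bs M a r1 r0 r2 s δ) : Evt M a r1 s δ fun P =>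
    ∀ d (T : Tg), PDy d → T.Is P d → ∀ r3 ρ J, Sl M a r1 r2 r3 T.g T.Xf ρ J →
      ∃ D', Low d D' T.g T.Xf ρ J := by
  refine ⟨1, one_pos, fun θ hθ => ?_⟩
  obtain ⟨R0, H⟩ := endok P354YR.kap_ok P354XY.end_ok hB.ne hB.lt hB.hs hB.hδ hB.r1.1
    (hB.r1.2.1.trans hB.r1.2.2.1) hB.r1.2.2.2 hθ.1
  refine ⟨R0, fun R hR => ⟨2, fun N hN => (H R hR).imp fun e k =>
    ⟨k.1, fun ε hε d T pd hT r3 ρ J hJ => ?_⟩⟩⟩
  obtain ⟨D', -, l⟩ := low_of P354YR.kap_ok P354XJ.lim_main P354XJ.pcol P354XA.pac M a r1 r2 r3 θ d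
    T.D T.g T.Xf ρ J hB.ne hB.lt hB.r1.1 hθ.1 pd hT.lor hT.sub hT.ind hT.box
    (k.2 N hN d T.D T.g T.Xf ⟨hT.lor, hT.sub, hT.ind, hT.box,
      fun σ => ⟨_, _, _, _, hT.ori σ, isEnd_up (hT.ends σ) hε.2⟩⟩) hJ
  exact ⟨D', l⟩

/-- An admissible slice from an inner part and boxes. -/
theorem glue0 {j : Jd} {s e : ℝ} {Z : Bool → ℝ} {J J' : X → R4} {q : Bool → Par}
    (x0 : 1 ≤ j.X0) (hZ : ∀ σ, j.X0 + 5 ≤ Z σ) (a : Adm j s 13 e (Rg Z) J q)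
    (h : EqOn J' J (Rg fun σ => Z σ - 1)) (sm : ContDiffOn ℝ ∞ J' {0}ᶜ)
    (bx : ∀ σ, ∀ x ≥ Z σ - 3, ∃ c φ,
      LocAt j 13 J' (q σ) σ {0}ᶜ (Icc (-1) 1) x c φ (e * (1 + x) ^ (-s))) :
    Adm j s 13 e {0}ᶜ J' q := by
  refine ⟨sm, fun y y0 y1 => ?_, fun σ x hx => ?_⟩
  · have k : y ∈ Rg fun σ => Z σ - 1 := mem_rg y0 fun σ => by linarith [hZ σ]
    refine jt_congr (a.mid y (rg_mono (fun σ => by linarith) k) y1) ?_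
    filter_upwards [(rg_open _).mem_nhds k] with z hz
    simp only [Pi.sub_apply, h hz]
  · rcases le_total (Z σ - 3) x with k | k
    · exact bx σ x k
    · obtain ⟨c, φ, k1⟩ := a.box σ x hx
      refine ⟨c, φ, k1.congr (rg_open _) h fun y y0 y1 _ => ?_⟩
      have k2 : dl σ x y ∈ Rg fun σ => Z σ - 1 :=
        shell y0 y1 (x0.trans hx) (by linarith) (by linarith [hZ (!σ)])
      exact ⟨rg_mono (fun σ => by linarith) k2, k2⟩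

/-- All maximal developments of data near the Kerr data have a future extension. -/
theorem near {M a : ℝ} (ha : a ≠ 0) (hM : |a| < M) : ∃ U : Set (DA M a), IsOpen U ∧
    (∃ d ∈ U, d.1 = ds M a) ∧ ∀ d ∈ U, ∀ S j, IsMGHD d.1 S j →
      ∃ N ι γ, IsFutureExtension (IsC0W1 1) S N ι γ ∧ ConnectedSpace N.pt ∧
        SecondCountableTopology N.pt := by
  have cls := P354YJ.cls
  have trans := P354TS.trans (P354UR.emb_of P354YC.csl) P354PR.ubd P354DO.dod P354PW.pth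
    (P354LF.loca cls P354XM.arg P354PW.path0 (P354LA.spine P354XM.arg P354PW.path))
  have sq := Real.sqrt_pos.2 (show 0 < M ^ 2 - a ^ 2 by nlinarith [sq_abs a, abs_nonneg a])
  have m1 : rm M a < M := by rw [rm]; linarith
  have m2 : M < rp M a := by rw [rp]; linarith
  obtain ⟨ε0, δ0, δ1, C0, G, H, K, g1, g2, g3⟩ := P354YJ.jp M a M ha hM m1 m2
  obtain ⟨j0, rfl, rfl, i0⟩ : ∃ j0 : Jd, j0.M = M ∧ j0.a = a ∧ j0.Is :=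
    ⟨⟨M, a, ε0, δ0, δ1, 0, 0, C0, G, H, K⟩, rfl, rfl, g1, g2, g3, le_rfl⟩
  obtain ⟨s, hs, δ, hδ, ext⟩ := P354TS.ext2 P354ZZ.ext P354YJ.midk _ _ ha hM
  obtain ⟨T, t0, η, η1, εp, p1, i1⟩ := int0 i0.hK hs
  have i := i0.t t0
  obtain ⟨r2, hr, ra, j1, j2⟩ := P354YJ.rad _ i ha hM
  obtain ⟨rb, b1, b2⟩ := exists_between hr.1
  obtain ⟨rc, c1, c2⟩ := exists_between b1
  obtain ⟨r1, d1, d2⟩ := exists_between c1
  have B1 : Bs j0.M j0.a r1 rb r2 s δ := ⟨ha, hM, ⟨d1, d2.trans c2, b2, hr.2.trans m2⟩, hs, hδ⟩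
  have B2 : Bs j0.M j0.a r1 rc rb s δ :=
    ⟨ha, hM, ⟨d1, d2, c2, b2.trans (hr.2.trans m2)⟩, hs, hδ⟩
  obtain ⟨t1, trans⟩ := trans _ _ _ _ _ _ _ B2 13
  obtain ⟨L, x1, locs⟩ := P354CH.locs _ _ _ _ _ _ i B1 ra 13 t1
  obtain ⟨x2, dat⟩ := P354DA.dat _ _ _ _ _ _ i B1 ra
  obtain ⟨x3, slc⟩ := P354SL.slc P354DA.dat _ _ _ _ _ _ i B1 ra
  obtain ⟨x0, y0, y1, y2, y3⟩ : ∃ x0 : ℝ, 1 ≤ x0 ∧ x1 ≤ x0 ∧ x2 ≤ x0 ∧ x3 ≤ x0 :=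
    ⟨max 1 (max x1 (max x2 x3)), by simp, by simp, by simp, by simp⟩
  obtain ⟨A, a1, a2, e0, a3, locs⟩ := locs x0 y1
  obtain ⟨ed, q1, dat⟩ := dat x0 y2 η η1
  obtain ⟨es, q2, slc⟩ := slc x0 y3
  obtain ⟨e3, z0, z3, z4⟩ : ∃ e > 0, e ≤ ed ∧ e ≤ es :=
    ⟨min ed es, by positivity, by simp, by simp⟩
  obtain ⟨e1, u1, sw⟩ := P354XM.switch _ _ _ _ _ _ (i.w x0) B1 y0 13 1 ⟨one_pos, le_rfl⟩ e3 z0
  obtain ⟨eB, u2, lB⟩ := locs (min e1 e3) (lt_min u1 z0)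
  have ev := ((((((cls _ _ _ _ _ _ _ B1).and (P354LN.lens _ _ _ _ _ _ _ B1)).and
    (trans L A a1 (fun p hp => ⟨(a2 p hp).1,
      b2.le.trans (a2 p hp).2.1, (a2 p hp).2.2⟩) _ u2)).and dat).and slc).and
    (gt0 B1)).and (evt_basic one_pos (lt_min (lt_min u2 u1) p1) 0 18)
  obtain ⟨θ0, v0, ev⟩ := ev
  obtain ⟨θ, v1, ext⟩ := ext r1 ⟨d1, B1.r1.2.1.trans (b2.trans B1.r1.2.2.2)⟩ θ0 v0
  obtain ⟨R0, ev⟩ := ev θ v1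
  obtain ⟨R, v2, ext⟩ := ext R0
  obtain ⟨N, ev⟩ := ev R v2
  obtain ⟨ε, v3, ev⟩ := ev N le_rfl
  obtain ⟨m0, η0, v4, ext⟩ := ext N ε v3
  obtain ⟨⟨⟨⟨⟨⟨cls, lens⟩, trans⟩, dat⟩, slc⟩, gt⟩, -, -, v6, -, v5⟩ := ev ε ⟨v3, le_rfl⟩
  simp only [le_min_iff] at v5
  obtain ⟨⟨f2, f3⟩, f5⟩ := v5
  have x0' : (0 : ℝ) ≤ x0 := by linarith
  let d0 : DA j0.M j0.a := ⟨ds j0.M j0.a, (P354XK.kd _ _ hM).1, (P354XK.kd _ _ hM).2, fun m =>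
    (P354XQ.qm_self m _).trans_lt ENNReal.zero_lt_top⟩
  have n0 : d0 ∈ BA j0.M j0.a m0 η0 :=
    (P354XQ.qm_self m0 _).trans_lt (ENNReal.ofReal_pos.2 v4)
  obtain ⟨T0, hT0⟩ := ext d0 n0
  obtain ⟨W, τ, V, -, k1, k2, k3⟩ := lens _ T0 d0.2.1 hT0 _ (img_cpt j1 fun _ => x0 + 5) (by
    rintro _ ⟨y, hy, rfl⟩
    exact ⟨⟨(j2 y hy.1).1, (j2 y hy.1).2.1.le, (B1.r1.2.1.trans b2).trans (j2 y hy.1).2.2⟩,
      (j2 y hy.1).2.2.le⟩)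
  obtain ⟨c, Ω, Φ, Ψ, E, st, -⟩ := P354SN.str _ _ _ _ _ _ k1 _ _ _ d0.1 _ _ _ _ ∅ hT0.lor
    (ro_empty _ _ _ _) ⟨isCompact_empty, fun _ k => k.elim⟩ (empty_subset _) (injOn_empty _)
    fun _ k => k.elim
  obtain ⟨m, η', w1, tr⟩ := trans W _ _ τ V _ _ c Ω Φ Ψ E
    ⟨k1, ((cls _ T0 hT0).mono (subset_univ _)).le v6, k3⟩ st 1 one_pos
  obtain ⟨η2, w2, hq⟩ := dj_of_qm (k1.cpt.image xs_cont)
    (by rintro _ ⟨p, hp, rfl⟩; exact k1.ne p hp.1) m w1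
  refine ⟨P354XQ.ball d0 m (ENNReal.ofReal η2) ∩ BA j0.M j0.a m0 η0,
    (P354XQ.isOpen_ball' _ _ _).inter (P354XQ.isOpen_BA (P354XQ.dsm d0) _ _),
    ⟨d0, ⟨P354XQ.mem_ball_self' _ _ (ENNReal.ofReal_pos.2 w2), n0⟩, rfl⟩, fun d hd S j hS => ?_⟩
  obtain ⟨T1, hT1⟩ := ext d hd.2
  obtain ⟨b, -, -, -, t1, -, -, -, -, t6, t7⟩ := tr d.1 T1 d.2.1 hT1 fun y hy =>
    hq _ _ (le_of_lt hd.1) y ⟨_, hy, xs_pt 0 y⟩
  obtain ⟨O, o1, o2, o3⟩ := t1.sm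
  have nq := fun σ => (hT1.ends σ).par.1
  obtain ⟨ad, la⟩ := (lB _ _ O T0.q T1.q b rfl rfl rfl (fun σ =>
    ⟨Par.near_mono (hT0.ends σ).par.1 f2, Par.near_mono (nq σ) f2⟩) o1 o2 o3 t6 t7).1
    fun y hy => k2 ⟨y, rg_rc hy, rfl⟩
  obtain ⟨J, s1, -, s3, s4⟩ := sw _ _ _ (fun _ => le_rfl) (fun σ => Par.near_mono (nq σ) f3) ad.sm
    (la.mono (min_le_left _ _) fun _ => by linarith)
  have aj := glue0 y0 (fun _ => le_rfl) (ad.mono (min_le_right _ _) x0') s1 s3 s4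
  obtain ⟨d', c1, c2, c3⟩ := dat _ T1 J hT1 (aj.mono z3 x0')
  obtain ⟨r3, ρ, sl⟩ := slc _ T1 J hT1 (aj.mono z4 x0')
  obtain ⟨D', lo⟩ := gt _ T1 d.2.1 hT1 r3 ρ J sl
  obtain ⟨δ', V', κ, k', e1, e2, e3⟩ := i1 _ (pp_mem (Par.near_mono (nq true) f5)) _
    (pp_mem (Par.near_mono (nq false) f5)) d' c3.1 c1 c3.2
  exact extension lo d.2.1 c3.1 c2 e1 e2 e3 hS

end Vale.Agent.N354C
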