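import Vale.Agent.P354ZZ.Top
import Vale.Agent.P354YM.QFin
import Vale.Agent.P354CB60.Plug
import Vale.Agent.P354BL.Main
import Vale.Agent.P354M53.Main
import Vale.Agent.N354C.Lor
import Vale.Agent.N354C.Par

open Set
open Vale.Agent.P354n (IsC0W1)
open Vale.Agent.P354I (X)
open Vale.Agent.P354Z (IsWt DD kerr0)
open Vale.Agent.P354BL (Induced)
open Vale.Agent.P354M53 (IsMax Extendible)
open Vale.Agent.N354C (IsExtOf)

/-- (1) Q1. (2) For all data near the two-ended Kerr data, the maximal development has a future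
extension with a continuous metric and locally integrable Christoffel symbols. (3) So the class
of extensions in Q1 cannot be lowered to W^{1,1}. -/
theorem Vale.Agent.N354C.OldContinuousExtension.thm :
    ∀ M a : ℝ, 0 < M → 0 < |a| → |a| < M →
    (∀ ρ : X → ℝ, IsWt M a ρ → ∃ U : Set (DD M a ρ), IsOpen U ∧ (∃ d ∈ U, d.1 = kerr0 M a) ∧
      IsMeagre {d : U | Extendible d.1.1}) ∧
    Induced M a (kerr0 M a) ∧ (∃ ρ : X → ℝ, IsWt M a ρ) ∧ ∀ ρ : X → ℝ, IsWt M a ρ →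
      (∀ d : DD M a ρ, ∃ S j, IsMax d.1 S j) ∧
      (∃ U : Set (DD M a ρ), IsOpen U ∧ (∃ d ∈ U, d.1 = kerr0 M a) ∧
        ∀ d ∈ U, ∀ S j, IsMax d.1 S j → ∃ N ι c, IsExtOf (IsC0W1 1) S N ι c) ∧
      ∀ U : Set (DD M a ρ), IsOpen U → (∃ d ∈ U, d.1 = kerr0 M a) →
        ¬ IsMeagre {d : U | ∃ S j, IsMax d.1.1 S j ∧ ∃ N ι c, IsExtOf (IsC0W1 1) S N ι c} :=
  fun M a h1 h2 h3 => by
  have h := Vale.Agent.P354YM.q1_best Vale.Agent.P354ZZ.top M a h1 h2 h3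
  refine ⟨fun ρ hρ => ?_, Vale.Agent.P354BL.induced h3, h.1, fun ρ hρ => ?_⟩
  · obtain ⟨U, k1, k2, k3, -⟩ := (h.2 ρ hρ).2
    exact ⟨U, k1, k2, k3.mono fun _ k => Vale.Agent.P354M53.Extendible.ext k⟩
  have ex : ∀ d : DD M a ρ, ∃ S j, IsMax d.1 S j := fun d =>
    let ⟨S, j, k, _⟩ := Vale.Agent.P354M53.max_unique (Vale.Agent.P354CB60.cbg d)
    ⟨S, j, k⟩
  obtain ⟨e, he⟩ := Vale.Agent.P354SF.exists_homeo' Vale.Agent.P354XK.kd h3
    (Vale.Agent.P354SF.isWt_iff.1 hρ)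
  obtain ⟨U, k1, ⟨d0, k2, k3⟩, k4⟩ := Vale.Agent.N354C.near (abs_pos.1 h2) h3
  have o := k1.preimage e.continuous
  have m : e.symm d0 ∈ e ⁻¹' U := by simpa using k2
  have z : (e.symm d0).1 = kerr0 M a := by
    rw [← he, e.apply_symm_apply, Vale.Agent.P354SF.kerr0_eq h3, k3]
  have all : ∀ d ∈ e ⁻¹' U, ∀ S j, IsMax d.1 S j → ∃ N ι c, IsExtOf (IsC0W1 1) S N ι c :=
    fun d hd S j k =>
      let ⟨_, _, _, l1, _, _⟩ := k4 (e d) hd S.spc j ((he d).symm ▸ k.mghd)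
      Vale.Agent.N354C.ext_of (fun f g D hD h k => Vale.Agent.N354C.c0w1_congr f g D hD h k)
        k.1.spacetime l1
  refine ⟨ex, ⟨_, o, ⟨_, m, z⟩, all⟩, fun V hV ⟨d1, l1, l2⟩ hm => ?_⟩
  have := (h.2 ρ hρ).1
  have : BaireSpace V := hV.isOpenEmbedding_subtypeVal.baireSpace
  have e1 : d1 = e.symm d0 := Subtype.ext (l2.trans z.symm)
  obtain ⟨d, n1, n2⟩ := (dense_of_mem_residual hm).inter_open_nonempty _
    (o.preimage continuous_subtype_val) ⟨⟨d1, l1⟩, show d1 ∈ e ⁻¹' U from e1 ▸ m⟩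
  obtain ⟨S, j, k⟩ := ex d.1
  exact n2 ⟨S, j, k, all _ n1 S j k⟩
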