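import Vale.Agent.N354C.Dev
import Vale.Agent.N354C.Ext
import Vale.Agent.P354CB60.Plug

/-! P354 (helper87): the front is not in the maximal development. -/

open scoped ContDiff
open Set Filter Topology Metric

noncomputable section

namespace Vale.Agent.N354C

open Vale.Agent.P354n
open Vale.Agent.P354XJ (res pl_spacetime pl_vacuum pl_isom pl_on pl_co pl_tgt pl_inv vel Iso)
open Vale.Agent.P354XE (Tw Low)
open Vale.Agent.P354XA (Ad exists_ad Tv_mem)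
open Vale.Agent.P354 (Tv norm_Tv)
open Vale.Agent.P354I (X Dat IsDev)
open Vale.Agent.P354YG
open Vale.Agent.P354CB
open Vale.Agent.P354CB60 (l0 l1 l2 l3)

theorem ll_push {M N : Spc} (hM : St M) (hN : St N) {κ : M.pt → N.pt} (h : IsOpenEmbedding κ)
    (hI : IsIsom κ) {a b : M.pt} (k : LL M a b) : LL N (κ a) (κ b) := by
  obtain ⟨c, c1, rfl, rfl⟩ := k
  exact ⟨_, cv_push hM.sp hN.sp h hI (uniqueDiffOn_Icc zero_lt_one) c1, rfl, rfl⟩

/-- A chart of an open part, whose metric extends, gives an extension. -/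
theorem ext_chart {A S : Spc} (hA : St A) (hS : St S) [ConnectedSpace S.pt]
    [SecondCountableTopology S.pt] {ι : A.pt → S.pt} (h1 : IsOpenEmbedding ι) (h2 : IsIsom ι)
    (c : A.Chart) {B : Set R4} (hB : IsOpen B) (hB' : IsPreconnected B) (hc : tgt c ⊆ B)
    {G : R4 → R4 → R4 → ℝ} {w : R4}
    (hG : ∀ y ∈ tgt c, (∀ a b, A.g c y a b = G y a b) ∧ A.g c y w (A.X c y) < 0)
    (sig : ∀ y ∈ B, ∃ L : R4 → R4, IsLinearMap ℝ L ∧ L.Injective ∧
      ∀ a b, G y a b = mink (L a) (L b))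
    (tl : ∀ y ∈ B, G y w w < 0) (reg : ∀ a b, IsC0W1 1 (fun y => G y a b) B)
    (sep : ∀ x, ∀ z ∈ B, z ∉ tgt c → ∃ W Q, IsOpen W ∧ IsOpen Q ∧ x ∈ W ∧ z ∈ Q ∧
      ∀ y ∈ tgt c, ι (inv c y) ∈ W → y ∉ Q)
    {x : R4} (s1 : x + w ∈ B) (s2 : ∀ t ∈ Ico (0 : ℝ) 1, x + t • w ∈ tgt c) (s3 : x + w ∉ tgt c) :
    ∃ N κ γ, IsFutureExtension (IsC0W1 1) S N κ γ ∧ ConnectedSpace N.pt ∧
      SecondCountableTopology N.pt := by
  have : Nonempty A.pt := ⟨inv c x⟩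
  let θ := h1.toOpenPartialHomeomorph ι
  have li : ∀ a, θ.symm (ι a) = a := fun a => θ.left_inv trivial
  have src : ∀ p, p ∈ (θ.symm.trans (A.toE c)).source → ∃ a, On c a ∧ ι a = p := fun p hp =>
    ⟨_, hp.2, θ.right_inv hp.1⟩
  have tg : (θ.symm.trans (A.toE c)).target = tgt c := inter_eq_left.2 fun _ _ => trivial
  refine future_ext hS.sp (θ.symm.trans (A.toE c)) hB hB' (tg ▸ hc) (fun p z z1 z2 => ?_) sig tl
    reg ?_ s1 (tg ▸ s2) (tg ▸ s3)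
  · obtain ⟨W, Q, a1, a2, a3, a4, a5⟩ := sep p z z1 (tg ▸ z2)
    refine ⟨W, Q, a1, a2, a3, a4, fun q q1 q2 => ?_⟩
    obtain ⟨a, b1, rfl⟩ := src q q2
    change A.toE c (θ.symm (ι a)) ∉ Q
    rw [li]
    exact a5 _ ((A.toE c).map_source b1) (by rwa [show inv c (A.toE c a) = a from
      (A.toE c).left_inv b1])
  · rintro e F rfl y hy hy'
    obtain ⟨a, b1, b2⟩ := src _ hy'
    obtain ⟨W, φ, w1, w2, w3, w4⟩ := l0.k2.inv hA hS (x := a)
      (.of_forall (l0.k1.of_isom h2 h1.continuous))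
    have on : On e (ι a) := b2 ▸ (S.toE e).map_target hy
    have ey : co e (ι a) = y := b2 ▸ (S.toE e).right_inv hy
    have k : Iso e c (fun y => co c (θ.symm (inv e y))) y := by
      refine (ey ▸ (w4 a w2).2.2.2 e c on ((w4 a w2).2.1.symm ▸ b1)).congr ?_
      filter_upwards [((S.toE e).continuousAt_symm hy).eventually_mem
        (w3.mem_nhds ⟨a, w2, b2⟩)] with z hz
      obtain ⟨q, q1, q2⟩ := hz
      rw [show inv e z = ι q from q2.symm, li, (w4 q q1).2.1]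
    obtain ⟨k1, k2, k3⟩ := k
    have m : co c (θ.symm (inv e y)) ∈ tgt c := (A.toE c).map_source hy'.2
    obtain ⟨g1, g2⟩ := hG _ m
    refine ⟨k1, fun u v => (k2 u v).trans (g1 _ _), (g1 _ _).symm.trans_lt ?_⟩
    exact hA.sp.up.same_cone c m (hA.sp.timelike c _ m)
      ((k2 _ _).symm.trans_lt (hS.sp.timelike e y hy)) k3 ((g1 _ _).trans_lt (tl _ (hc m))).le g2

variable {D D1 : Set R4} {g : Tw} {Xf : R4 → R4} {ρ : R4 → ℝ} {J : X → R4} {M N S : Spc}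
  {τ : M.pt → ℝ} {O : Set M.pt} {hO : IsOpen O} {i1 : D1 → N.pt} {i2 : O → N.pt} {e : N.Chart}
  {d : Dat} {Γ : Set S.pt} {κ : N.pt → S.pt}
  (h : Gd D g Xf ρ τ N D1 O hO i1 i2 e) (hl : Low d D g Xf ρ J) (hM : Inn0 M τ) (hS : St S)
  (G : G1 S Γ) (k1 : IsOpenEmbedding κ) (k2 : IsIsom κ) (hu : Hull S Γ (range κ))
  (fu : ∀ n, κ n ∈ Fu S Γ → n ∉ Ng i1 fun p => p.1)
include h hl hM hS G k1 k2 hu fu

/-- The slice has no limit points outside the development. -/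
theorem noescape {p : S.pt} (hp : p ∈ Fu S Γ) (cl : p ∈ closure (κ '' Ze i1 ρ)) : p ∈ range κ := by
  have : Nonempty N.pt := (conn h hl hM).toNonempty
  have : Nonempty S.pt := ⟨p⟩
  have hs : P354p.IsSpacetime (P354p.IsC0W1 2) (Up S) := IsSpacetime.up (Reg := IsC0W1 2)
    ⟨hS.sp.tensor, hS.sp.signature, hS.sp.timelike, hS.sp.continuous,
      fun e a b => N354.c0w1_smooth (S.toE e).open_target (hS.sp.regular e a b)⟩
  obtain ⟨_, -, c, c1, -, c2⟩ := id hp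
  obtain ⟨A, a1, a2⟩ := exists_ad hs (c1.up le_rfl)
  have y0 : A.Y 0 = p := by
    rw [Ad.Y, P354p.yv, map_zero, add_zero, a2, ← c2]
    exact (S.toE A.e).left_inv a1
  obtain ⟨L, L0, hL⟩ : ∃ L > 0, ∀ z : R4, ‖z‖ ≤ L → z ∈ ball (0 : R4) A.R ∧ A.Y z ∈ Fu S Γ := by
    obtain ⟨L, L0, hL⟩ := Metric.nhds_basis_closedBall.eventually_iff.1
      (Eventually.and (ball_mem_nhds (0 : R4) A.pos) ((A.cont (mem_ball_self A.pos)).eventually_mem
        ((l1.opFu hS Γ).mem_nhds (y0.symm ▸ hp))))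
    exact ⟨L, L0, fun z hz => hL (mem_closedBall_zero_iff.2 hz)⟩
  obtain ⟨b, hb⟩ : ∃ b : R4, b = -L • Tv := ⟨_, rfl⟩
  have nb : ∀ s ∈ Icc 0 L, ‖b + s • Tv‖ ≤ L := fun s hs => by
    rw [hb, ← add_smul, norm_smul, norm_Tv, mul_one]
    exact abs_le.2 ⟨by linarith [hs.1], by linarith [hs.2]⟩
  have bL : A.Y (b + L • Tv) = p := by rw [hb, ← add_smul, neg_add_cancel, zero_smul, y0]
  have cv : Cv S (Icc 0 L) fun s => A.Y (b + s • Tv) :=
    IsFutureCurve.of (A.line hs Tv_mem (uniqueDiffOn_Icc L0) fun s hs => (hL _ (nb s hs)).1)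
  have key : ∀ s ∈ Ioo 0 L, ∃ n ∈ Ng i1 ρ, κ n = A.Y (b + s • Tv) := fun s hs => by
    have ll := l1.b.ll_cv hS cv (Icc_subset_Icc_left hs.1.le) hs.2
    obtain ⟨_, ⟨u, u1, u2, u3⟩, q, q1, rfl⟩ := mem_closure_iff.1 cl _ (l1.opF hS _) (bL ▸ ll)
    obtain ⟨v, v1, v2⟩ := cv_lift h.st hS.sp k1 k2 (uniqueDiffOn_Icc zero_lt_one) ⟨0, by simp⟩ u1
      (l1.in_dn hS hu u1 (u2 ▸ l1.fu_pa hS G (hL _ (nb s (Ioo_subset_Icc_self hs))).2)
        ⟨q, u3.symm⟩)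
    refine ⟨v 0, by_contra fun k => ?_, (v2 0 (by simp)).trans u2⟩
    exact ((crB h hl hM).fut v1 Subset.rfl zero_lt_one k).2
      (k1.injective ((v2 1 (by simp)).trans u3) ▸ q1)
  have vW : ∀ s ∈ Ioo 0 L, b + s • Tv ∈ A.W (N := Up N) κ univ := fun s hs =>
    let ⟨n, _, k⟩ := key s hs
    ⟨(hL _ (nb s (Ioo_subset_Icc_self hs))).1, n, trivial, k⟩
  obtain ⟨a, ha⟩ : ∃ a : ℝ → N.pt, a = fun t => Function.invFun κ (A.Y (b + t • Tv)) := ⟨_, rfl⟩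
  have ia : ∀ s ∈ Ioo 0 L, κ (a s) = A.Y (b + s • Tv) := fun s k =>
    ha ▸ Function.invFun_eq ((vW s k).2.imp fun _ k => k.2)
  have m : ∀ s ∈ Ioo 0 L, ∃ x : D1, x.1 ∈ {p ∈ D | ρ p < 0 ∧ 0 ≤ p.1} ∧ i1 x = a s := fun s hs => by
    obtain ⟨_, ⟨x, x1, rfl⟩, x2⟩ := key s hs
    exact ⟨x, ⟨h.sub x.2, x1, not_lt.1 fun k => fu _ (x2 ▸ (hL _ (nb s
      (Ioo_subset_Icc_self hs))).2) (h.ng.2 k)⟩, k1.injective (x2.trans (ia s hs).symm)⟩
  have ca : Cv N (Ioo 0 L) a :=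
    ha ▸ IsFutureCurve.of (A.pull k1 h.st.up hs k2.up Tv_mem isOpen_Ioo.uniqueDiffOn vW)
  obtain ⟨K0, hK⟩ := (isCompact_closedBall (0 : R4) L).exists_bound_of_continuousOn
    (((A.G_smooth (N := Up S) (ι := id) .id hS.sp.up hs hS.sp.tensor.up).continuousOn_fderiv_of_isOpen
      (A.W_open .id) (by simp)).mono fun z hz =>
        ⟨(hL z (mem_closedBall_zero_iff.1 hz)).1, _, trivial, rfl⟩)
  have K1 : 0 ≤ K0 := (norm_nonneg _).trans (hK 0 (mem_closedBall_self L0.le))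
  obtain ⟨K, K1, K2, K3⟩ := hl.lya L (fun t => co e (a t)) (fun _ => 2 * K0) (fun s => 2 * K0 * s)
    ⟨L0, ⟨by fun_prop, fun s _ => ⟨by simpa using (hasDerivAt_id s).const_mul (2 * K0),
      by positivity⟩⟩, fun s hs' => by
      obtain ⟨x, x1, x2⟩ := m s hs'
      have on : On e (a s) := x2 ▸ (h.on x).1
      obtain ⟨w, w1, w2, w3⟩ := vel ca (Ioo_mem_nhds hs'.1 hs'.2) on
      obtain ⟨c1, c2, c3, c4⟩ := A.chart (N := Up N) k1 h.st.up hs k2.up (vW s hs') ha on rfl rfl rfl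
      change 1 / 2 ≤ -N.g e _ _ _ at c2
      change -N.g e _ _ _ ≤ 2 at c3
      change ∀ v, |P354XA.low (N.g e) _ _ _ v| ≤ _ * √(N.g e _ _ _ + 2 * N.g e _ _ _ ^ 2) at c4
      rw [h.eg] at w2 w3 c2 c3 c4
      rw [h.eX] at w3
      refine ⟨?_, c1, ?_, c2, c3, fun v => (c4 v).trans (mul_le_mul_of_nonneg_right
        (mul_le_mul_of_nonneg_left (hK _ (mem_closedBall_zero_iff.2
          (nb s (Ioo_subset_Icc_self hs')))) two_pos.le) (Real.sqrt_nonneg _))⟩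
      · show co e (a s) ∈ _
        rwa [← x2, (h.on x).2]
      · rw [w1.deriv]
        exact ⟨w2, w3⟩⟩
  have K4 : IsCompact (K ∩ ρ ⁻¹' Iic 0) := K2.of_isClosed_subset
    ((hl.cut.cont.mono K1).preimage_isClosed_of_isClosed K2.isClosed isClosed_Iic) inter_subset_left
  have K5 : IsCompact (i1 '' (Subtype.val ⁻¹' (K ∩ ρ ⁻¹' Iic 0))) := by
    refine IsCompact.image ?_ h.e1.continuous
    rwa [Subtype.isCompact_iff, Subtype.image_preimage_coe,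
      inter_eq_right.2 fun p hp => h.m1 p (K1 hp.1) hp.2]
  have lim : Tendsto (fun s => A.Y (b + s • Tv)) (𝓝[<] L) (𝓝 p) := by
    refine bL ▸ (cv.1 L ⟨L0.le, le_rfl⟩).mono_left ?_
    rw [← nhdsWithin_Ioo_eq_nhdsLT L0]
    exact nhdsWithin_mono _ Ioo_subset_Icc_self
  refine image_subset_range _ _ ((K5.image k1.continuous).isClosed.mem_of_frequently_of_tendsto
    ((K3.and_eventually (Ioo_mem_nhdsLT L0)).mono fun s hs => ?_) lim)
  obtain ⟨x, x1, x2⟩ := m s hs.2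
  have s1 : co e (a s) ∈ K := hs.1
  rw [← x2, (h.on x).2] at s1
  exact ⟨_, ⟨x, ⟨s1, x1.2.1.le⟩, x2⟩, ia s hs.2⟩

end Vale.Agent.N354C
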