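import Vale.Agent.P354n.Defs

/-! P354 (helper87): functions which are continuous, and differentiable off the hyperplane
u = 0 with an integrable bound, are of class W^{1,1}. -/

open scoped ContDiff
open Set Filter Topology MeasureTheory Metric

namespace Vale.Agent.N354C

open Vale.Agent.P354n

theorem int_zero {g h : R4 → ℝ} {a : R4} (hc : Continuous g) (gi : Integrable g)
    (hm : Measurable h) (hi : Integrable h) (hd : ∀ y : R4, y.1 ≠ 0 → HasLineDerivAt ℝ g (h y) y a) :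
    ∫ y, h y = 0 := by
  have i2 : (volume : Measure (ℝ × ℝ)).IsAddHaarMeasure := Measure.prod.instIsAddHaarMeasure _ _
  have i3 : (volume : Measure (ℝ × ℝ × ℝ)).IsAddHaarMeasure :=
    Measure.prod.instIsAddHaarMeasure _ _
  have i4 : (volume : Measure R4).IsAddHaarMeasure := Measure.prod.instIsAddHaarMeasure _ _
  have I : Integrable (Function.uncurry fun (x : R4) (t : ℝ) => h (x + t • a))
      (volume.prod (volume.restrict (Ioc (0 : ℝ) 1))) := by
    have m : Measurable (Function.uncurry fun (x : R4) (t : ℝ) => h (x + t • a)) :=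
      hm.comp (by fun_prop)
    refine (integrable_prod_iff' m.aestronglyMeasurable).2 ⟨.of_forall fun t =>
      hi.comp_add_right (t • a), ?_⟩
    simp only [Function.uncurry, integral_add_right_eq_self (fun x => ‖h x‖)]
    exact integrable_const _
  have e := integral_integral_swap I
  simp only [integral_add_right_eq_self h] at e
  have n : ∀ᵐ x : R4, x.1 ≠ 0 :=
    Measure.quasiMeasurePreserving_fst.ae (p := fun s : ℝ => s ≠ 0) (by simp [ae_iff])
  have k : ∀ᵐ x : R4, ∫ t in Ioc (0 : ℝ) 1, h (x + t • a) = g (x + a) - g x := by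
    filter_upwards [n, I.prod_right_ae] with x h1 h2
    have := integral_eq_of_hasDerivAt_off_countable (fun t : ℝ => g (x + t • a))
      (fun t => h (x + t • a)) (a := 0) (b := 1) (countable_singleton (-x.1 / a.1))
      (by fun_prop) (fun t ht => ?_) ((intervalIntegrable_iff_integrableOn_Ioc_of_le
        zero_le_one).2 h2)
    · rw [intervalIntegral.integral_of_le zero_le_one] at this
      simpa using this
    · have h3 : (x + t • a).1 ≠ 0 := fun j => by
        have j' : x.1 + t * a.1 = 0 := j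
        have a0 : a.1 ≠ 0 := fun i => h1 (by simpa [i] using j')
        exact ht.2 (by rw [mem_singleton_iff, eq_div_iff a0]; linarith)
      have h4 : HasDerivAt (fun s : ℝ => g (x + t • a + s • a)) (h (x + t • a)) (t - t) := by
        rw [sub_self]; exact hd _ h3
      refine (h4.comp_sub_const t t).congr_of_eventuallyEq (.of_forall fun s => ?_)
      simp only [sub_smul]
      congr 1
      abel
  rw [integral_congr_ae k, integral_sub (gi.comp_add_right a) gi, integral_add_right_eq_self g,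
    sub_self] at e
  simpa using e.symm

/-- The class of functions. -/
structure Gd (B : Set R4) (n : ℝ → ℝ) (f : R4 → ℝ) : Prop where
  cont : ContinuousOn f B
  bd : ∃ K, 0 ≤ K ∧ ∀ y ∈ B, y.1 ≠ 0 → DifferentiableAt ℝ f y ∧ |f y| ≤ K ∧
    ‖fderiv ℝ f y‖ ≤ K * n y.1

variable {B : Set R4} {n : ℝ → ℝ} {f g : R4 → ℝ}

theorem Gd.c0w1 (hB : IsOpen B) (hn : IntegrableOn (fun y : R4 => n y.1) B) (h : Gd B n f) :
    IsC0W1 1 f B := by
  obtain ⟨K, -, hK⟩ := h.bd
  have ae : ∀ᵐ x : R4, x.1 ≠ 0 :=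
    Measure.quasiMeasurePreserving_fst.ae (p := fun s : ℝ => s ≠ 0) (by simp [ae_iff])
  refine ⟨h.cont, fun a => ?_⟩
  have m : Measurable fun y => fderiv ℝ f y a := measurable_fderiv_apply_const ℝ f a
  have i : IntegrableOn (fun y => fderiv ℝ f y a) B := by
    refine ((hn.const_mul K).mul_const ‖a‖).mono' m.aestronglyMeasurable ?_
    filter_upwards [ae_restrict_of_ae ae, ae_restrict_mem hB.measurableSet] with y h1 h2
    exact ((fderiv ℝ f y).le_opNorm a).trans
      (mul_le_mul_of_nonneg_right (hK y h2 h1).2.2 (norm_nonneg a))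
  refine ⟨fun y => fderiv ℝ f y a, fun Q hQ _ => memLp_one_iff_integrable.2 (i.mono_set hQ),
    fun φ a1 a2 a3 => ?_⟩
  replace a1 : ContDiff ℝ ∞ φ := contDiffOn_univ.1 a1
  have d : Differentiable ℝ φ := a1.differentiable (by simp)
  have pr : ∀ ψ : R4 → ℝ, Continuous ψ → HasCompactSupport ψ → tsupport ψ ⊆ B →
      Continuous (fun y => f y * ψ y) ∧ Integrable fun y => f y * ψ y := fun ψ b1 b2 b3 => by
    have c : Continuous fun y => f y * ψ y :=
      (h.cont.mul b1.continuousOn).continuous_of_tsupport_subset hB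
        (tsupport_mul_subset_right.trans b3)
    exact ⟨c, c.integrable_of_hasCompactSupport b2.mul_left⟩
  obtain ⟨p1, p2⟩ := pr φ a1.continuous a2 a3
  obtain ⟨p3, p4⟩ := pr (fun y => fderiv ℝ φ y a)
    ((a1.continuous_fderiv (by simp)).clm_apply continuous_const) (a2.fderiv_apply ℝ a)
    ((tsupport_fderiv_apply_subset ℝ a).trans a3)
  have p5 : Integrable fun y => fderiv ℝ f y a * φ y := by
    obtain ⟨M, hM⟩ := a1.continuous.bounded_above_of_compact_support a2
    refine (integrableOn_iff_integrable_of_support_subset (s := B) fun y hy => a3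
      (subset_tsupport _ (right_ne_zero_of_mul hy))).1 ?_
    exact Integrable.mul_bdd i a1.continuous.aestronglyMeasurable (.of_forall hM)
  have k := int_zero (a := a) p1 p2 (h := fun y => f y * fderiv ℝ φ y a + fderiv ℝ f y a * φ y)
    (p3.measurable.add (m.mul a1.continuous.measurable)) (p4.add p5) fun y hy => by
      by_cases j : y ∈ B
      · have := ((hK y j hy).1.hasFDerivAt.mul (d y).hasFDerivAt).hasLineDerivAt a
        refine HasDerivAt.congr_deriv this ?_
        simp [mul_comm]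
      · have e : φ =ᶠ[𝓝 y] fun _ => 0 := notMem_tsupport_iff_eventuallyEq.1 fun i => j (a3 i)
        have e' : (fun y => f y * φ y) =ᶠ[𝓝 y] fun _ => 0 := e.mono fun z hz => by simp [hz]
        have := ((hasFDerivAt_const (𝕜 := ℝ) (0 : ℝ) y).congr_of_eventuallyEq e').hasLineDerivAt a
        refine HasDerivAt.congr_deriv this ?_
        simp [e.fderiv_eq, e.eq_of_nhds]
  rw [integral_add p4 p5] at k
  simp only [P354n.deriv, (d _).lineDeriv_eq_fderiv]
  linarith

theorem Gd.add (h : Gd B n f) (h' : Gd B n g) : Gd B n fun y => f y + g y := by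
  obtain ⟨K, k0, hK⟩ := h.bd
  obtain ⟨L, l0, hL⟩ := h'.bd
  refine ⟨h.cont.add h'.cont, K + L, by positivity, fun y h1 h2 => ?_⟩
  obtain ⟨a1, a2, a3⟩ := hK y h1 h2
  obtain ⟨b1, b2, b3⟩ := hL y h1 h2
  refine ⟨a1.add b1, (abs_add_le _ _).trans (add_le_add a2 b2), ?_⟩
  rw [fderiv_fun_add a1 b1, add_mul]
  exact (norm_add_le _ _).trans (add_le_add a3 b3)

theorem Gd.mul (h : Gd B n f) (h' : Gd B n g) : Gd B n fun y => f y * g y := by
  obtain ⟨K, k0, hK⟩ := h.bd
  obtain ⟨L, l0, hL⟩ := h'.bd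
  refine ⟨h.cont.mul h'.cont, 2 * (K * L), by positivity, fun y h1 h2 => ?_⟩
  obtain ⟨a1, a2, a3⟩ := hK y h1 h2
  obtain ⟨b1, b2, b3⟩ := hL y h1 h2
  refine ⟨a1.mul b1, ?_, ?_⟩
  · rw [abs_mul]
    nlinarith [mul_le_mul a2 b2 (abs_nonneg _) k0, mul_nonneg k0 l0]
  · rw [fderiv_fun_mul a1 b1]
    refine (norm_add_le _ _).trans ?_
    rw [norm_smul, norm_smul]
    have c1 := mul_le_mul a2 b3 (norm_nonneg _) k0
    have c2 := mul_le_mul b2 a3 (norm_nonneg _) l0
    simp only [Real.norm_eq_abs]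
    linarith

theorem Gd.smooth (hB : Bornology.IsBounded B) (hn : ∀ y ∈ B, y.1 ≠ 0 → 1 ≤ n y.1)
    (h : ContDiff ℝ 1 f) : Gd B n f := by
  obtain ⟨K, hK⟩ := hB.isCompact_closure.exists_bound_of_continuousOn h.continuous.continuousOn
  obtain ⟨L, hL⟩ := hB.isCompact_closure.exists_bound_of_continuousOn
    (h.continuous_fderiv one_ne_zero).continuousOn
  refine ⟨h.continuous.continuousOn, |K| + |L|, by positivity, fun y h1 h2 =>
    ⟨h.differentiable one_ne_zero y, ?_, ?_⟩⟩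
  · exact (hK y (subset_closure h1)).trans (by linarith [le_abs_self K, abs_nonneg L])
  · refine (hL y (subset_closure h1)).trans ?_
    nlinarith [le_abs_self L, abs_nonneg K, abs_nonneg L, hn y h1 h2]

/-- The reflection. -/
def rf (y : R4) : R4 := (-|y.1|, y.2)

theorem rf_dif {y : R4} (h : y.1 ≠ 0) : DifferentiableAt ℝ rf y ∧ ‖fderiv ℝ rf y‖ ≤ 1 := by
  refine ⟨(differentiableAt_fst.abs h).neg.prodMk differentiableAt_snd, ?_⟩
  refine norm_fderiv_le_of_lipschitz ℝ (C := 1) (LipschitzWith.of_dist_le_mul fun x z => ?_)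
  simp only [rf, Prod.dist_eq, NNReal.coe_one, one_mul, dist_neg_neg]
  exact max_le_max (abs_abs_sub_abs_le_abs_sub _ _) le_rfl

variable {p : ℝ × ℝ × ℝ} {r : ℝ}

theorem mem_B {y : R4} : y ∈ ball ((0, p) : R4) r ↔ |y.1| < r ∧ y.2 ∈ ball p r := by
  rw [← ball_prod_same]
  simp

theorem rf_mem {y : R4} (h : y ∈ ball ((0, p) : R4) r) (h' : y.1 ≠ 0) :
    rf y ∈ ball ((0, p) : R4) r ∧ (rf y).1 < 0 :=
  ⟨mem_B.2 ⟨by simpa [rf] using (mem_B.1 h).1, (mem_B.1 h).2⟩, neg_lt_zero.2 (abs_pos.2 h')⟩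

theorem sub_clos : ball ((0, p) : R4) r ⊆ closure (ball (0, p) r ∩ {y | y.1 ≠ 0}) := by
  refine Dense.open_subset_closure_inter ?_ isOpen_ball
  exact (dense_compl_singleton (0 : ℝ)).preimage isOpenMap_fst

theorem le_of_off {f g : R4 → ℝ} (hf : ContinuousOn f (ball (0, p) r))
    (hg : ContinuousOn g (ball (0, p) r))
    (h : ∀ y ∈ ball ((0, p) : R4) r, y.1 ≠ 0 → f y ≤ g y) : ∀ y ∈ ball ((0, p) : R4) r, f y ≤ g y :=
  fun y hy => ContinuousWithinAt.closure_le (sub_clos hy) ((hf y hy).mono inter_subset_left)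
    ((hg y hy).mono inter_subset_left) fun z hz => h z hz.1 hz.2

/-- Extension across u = 0. -/
theorem extend {N : ℝ → ℝ} (hN : ∀ s < 0, HasDerivAt N (n s) s) (hl : Tendsto N (𝓝[<] 0) (𝓝 0))
    (h0 : ∀ s < 0, 0 ≤ n s) {F : R4 → ℝ} {K : ℝ} (k0 : 0 ≤ K)
    (h : ∀ y ∈ ball ((0, p) : R4) r, y.1 < 0 → DifferentiableAt ℝ F y ∧ |F y| ≤ K ∧
      ∀ a : R4, |fderiv ℝ F y a| ≤ K * n y.1 * |a.1| + K * ‖a.2‖) :
    ∃ f, Gd (ball (0, p) r) (fun s => n (-|s|) + 1) f ∧
      ∀ y ∈ ball ((0, p) : R4) r, y.1 ≠ 0 → f y = F (rf y) := by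
  have tg : ∀ s, |s| < r → s < 0 → ∀ q ∈ ball p r, ∀ q' ∈ ball p r,
      |F (s, q') - F (s, q)| ≤ K * ‖q' - q‖ := fun s s1 s2 q hq q' hq' => by
    refine (convex_ball p r).norm_image_sub_le_of_norm_hasFDerivWithin_le (𝕜 := ℝ)
      (f := fun q => F (s, q)) (fun x hx => ((h (s, x) (mem_B.2 ⟨s1, hx⟩) s2).1.hasFDerivAt.comp x
        (hasFDerivAt_prodMk_right s x)).hasFDerivWithinAt) (fun x hx => ?_) hq hq'
    exact ContinuousLinearMap.opNorm_le_bound _ k0 fun b => by
      simpa using (h (s, x) (mem_B.2 ⟨s1, hx⟩) s2).2.2 (0, b)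
  have nm : ∀ q ∈ ball p r, ∀ s t, |s| < r → s ≤ t → t < 0 →
      |F (t, q) - F (s, q)| ≤ K * N t - K * N s := fun q hq s t s1 s2 s3 => by
    have m : ∀ x ∈ Icc s t, ((x, q) : R4) ∈ ball ((0, p) : R4) r ∧ x < 0 := fun x hx =>
      ⟨mem_B.2 ⟨abs_lt.2 ⟨(abs_lt.1 s1).1.trans_le hx.1, by
        linarith [hx.2, abs_nonneg s]⟩, hq⟩, hx.2.trans_lt s3⟩
    have d1 : ∀ x ∈ Icc s t, HasDerivAt (fun x => F (x, q) - F (s, q))
        (fderiv ℝ F (x, q) (1, 0)) x := fun x hx =>
      ((h _ (m x hx).1 (m x hx).2).1.hasFDerivAt.comp_hasDerivAt x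
        ((hasDerivAt_id x).prodMk (hasDerivAt_const x q))).sub_const _
    have d2 : ∀ x ∈ Icc s t, HasDerivAt (fun x => K * N x - K * N s) (K * n x) x := fun x hx =>
      ((hN x (m x hx).2).const_mul K).sub_const _
    exact image_norm_le_of_norm_deriv_right_le_deriv_boundary'
      (fun r hr => (d1 r hr).continuousAt.continuousWithinAt)
      (fun r hr => (d1 r (Ico_subset_Icc_self hr)).hasDerivWithinAt) (by simp)
      (fun r hr => (d2 r hr).continuousAt.continuousWithinAt)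
      (fun r hr => (d2 r (Ico_subset_Icc_self hr)).hasDerivWithinAt)
      (fun r hr => by simpa using (h _ (m r (Ico_subset_Icc_self hr)).1
        (m r (Ico_subset_Icc_self hr)).2).2.2 (1, 0)) ⟨s2, le_rfl⟩
  have md : ∀ y ∈ ball ((0, p) : R4) r, y.1 < 0 → ∀ z ∈ ball ((0, p) : R4) r, z.1 < 0 →
      dist (F y) (F z) ≤ |K * N y.1 - K * N z.1| + K * ‖y.2 - z.2‖ := fun y y1 y2 z z1 z2 => by
    have a1 := tg y.1 (mem_B.1 y1).1 y2 _ (mem_B.1 z1).2 _ (mem_B.1 y1).2
    have a2 : |F (y.1, z.2) - F (z.1, z.2)| ≤ |K * N y.1 - K * N z.1| := by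
      rcases le_total y.1 z.1 with j | j
      · rw [abs_sub_comm, abs_sub_comm (K * N y.1)]
        exact (nm _ (mem_B.1 z1).2 _ _ (mem_B.1 y1).1 j z2).trans (le_abs_self _)
      · exact (nm _ (mem_B.1 z1).2 _ _ (mem_B.1 z1).1 j y2).trans (le_abs_self _)
    have a3 := abs_sub_le (F (y.1, y.2)) (F (y.1, z.2)) (F (z.1, z.2))
    rw [Real.dist_eq]
    linarith
  have oA : IsOpen (ball ((0, p) : R4) r ∩ {y | y.1 ≠ 0}) :=
    isOpen_ball.inter (isOpen_ne.preimage continuous_fst)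
  have df : ∀ y ∈ ball ((0, p) : R4) r ∩ {y | y.1 ≠ 0}, DifferentiableAt ℝ (fun y => F (rf y)) y :=
    fun y hy => (h _ (rf_mem hy.1 hy.2).1 (rf_mem hy.1 hy.2).2).1.comp y (rf_dif hy.2).1
  have eq : ∀ y ∈ ball ((0, p) : R4) r ∩ {y | y.1 ≠ 0},
      extendFrom (ball (0, p) r ∩ {y | y.1 ≠ 0}) (fun y => F (rf y)) y = F (rf y) :=
    extendFrom_extends fun y hy => (df y hy).continuousAt.continuousWithinAt
  refine ⟨extendFrom (ball (0, p) r ∩ {y | y.1 ≠ 0}) fun y => F (rf y),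
    ⟨continuousOn_extendFrom sub_clos fun x hx => ?_, K, k0, fun y h1 h2 => ?_⟩,
    fun y h1 h2 => eq y ⟨h1, h2⟩⟩
  · by_cases j : x.1 = 0
    · have : (𝓝[ball ((0, p) : R4) r ∩ {y | y.1 ≠ 0}] x).NeBot :=
        mem_closure_iff_nhdsWithin_neBot.1 (sub_clos hx)
      rw [← cauchy_map_iff_exists_tendsto, cauchy_map_iff', tendsto_uniformity_iff_dist_tendsto_zero]
      have t1 : Tendsto (fun y => K * N (rf y).1) (𝓝[ball ((0, p) : R4) r ∩ {y | y.1 ≠ 0}] x)
          (𝓝 (K * 0)) := by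
        refine (hl.comp (tendsto_nhdsWithin_iff.2 ⟨?_, eventually_mem_nhdsWithin.mono
          fun y hy => (rf_mem hy.1 hy.2).2⟩)).const_mul K
        have c : Continuous fun y => (rf y).1 := by unfold rf; fun_prop
        have := (c.tendsto x).mono_left (nhdsWithin_le_nhds (s := ball (0, p) r ∩ {y | y.1 ≠ 0}))
        simpa [rf, j] using this
      have t2 : Tendsto (fun y : R4 => y.2) (𝓝[ball ((0, p) : R4) r ∩ {y | y.1 ≠ 0}] x) (𝓝 x.2) :=
        (continuous_snd.tendsto x).mono_left nhdsWithin_le_nhds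
      have t3 := ((t1.comp tendsto_fst).sub (t1.comp (tendsto_snd
        (f := 𝓝[ball ((0, p) : R4) r ∩ {y | y.1 ≠ 0}] x)))).abs.add
        (((t2.comp tendsto_fst).sub (t2.comp tendsto_snd)).norm.const_mul K)
      simp only [sub_self, abs_zero, norm_zero, mul_zero, add_zero] at t3
      refine squeeze_zero' (Eventually.of_forall fun _ => dist_nonneg) ?_ t3
      filter_upwards [prod_mem_prod self_mem_nhdsWithin self_mem_nhdsWithin] with q hq
      exact md _ (rf_mem hq.1.1 hq.1.2).1 (rf_mem hq.1.1 hq.1.2).2 _ (rf_mem hq.2.1 hq.2.2).1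
        (rf_mem hq.2.1 hq.2.2).2
    · exact ⟨_, (df x ⟨hx, j⟩).continuousAt.continuousWithinAt⟩
  · have ev : extendFrom (ball (0, p) r ∩ {y | y.1 ≠ 0}) (fun y => F (rf y)) =ᶠ[𝓝 y]
        fun y => F (rf y) := mem_of_superset (oA.mem_nhds ⟨h1, h2⟩) eq
    obtain ⟨m1, m2⟩ := rf_mem h1 h2
    obtain ⟨a1, a2, a3⟩ := h _ m1 m2
    refine ⟨(df y ⟨h1, h2⟩).congr_of_eventuallyEq ev, ev.eq_of_nhds ▸ a2, ?_⟩
    have a0 := h0 _ m2
    have a4 : ‖fderiv ℝ F (rf y)‖ ≤ K * (n (-|y.1|) + 1) :=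
      ContinuousLinearMap.opNorm_le_bound _ (mul_nonneg k0 (add_nonneg a0 zero_le_one)) fun a => by
        refine (a3 a).trans ?_
        have b1 := mul_le_mul_of_nonneg_left (norm_fst_le a) (mul_nonneg k0 a0)
        have b2 := mul_le_mul_of_nonneg_left (norm_snd_le a) k0
        change K * n (-|y.1|) * |a.1| ≤ K * n (-|y.1|) * _ at b1
        change K * n (-|y.1|) * |a.1| + _ ≤ _
        linarith
    rw [ev.fderiv_eq, fderiv_fun_comp y a1 (rf_dif h2).1]
    refine (ContinuousLinearMap.opNorm_comp_le _ _).trans ?_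
    exact (mul_le_of_le_one_right (norm_nonneg _) (rf_dif h2).2).trans a4

theorem int_n (hr : 0 < r) (h : IntegrableOn n (Ioo (-r) 0)) :
    IntegrableOn (fun y : R4 => n (-|y.1|) + 1) (ball (0, p) r) := by
  have h1 : IntegrableOn (fun s => n (-|s|)) (Ioo (-r) 0) :=
    h.congr_fun (fun s hs => by simp [abs_of_neg hs.2]) measurableSet_Ioo
  have h2 : IntegrableOn (fun s => n (-|s|)) (Ioo 0 r) := by
    have := ((MeasurePreserving.integrableOn_comp_preimage (Measure.measurePreserving_neg _)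
      (MeasurableEquiv.neg ℝ).measurableEmbedding).2 h)
    rw [show Neg.neg ⁻¹' Ioo (-r) 0 = Ioo 0 r by ext; simp [and_comm]] at this
    exact this.congr_fun (fun s hs => by simp [abs_of_pos hs.1]) measurableSet_Ioo
  have h3 : IntegrableOn (fun s => n (-|s|)) (ball 0 r) := by
    rw [Real.ball_eq_Ioo, zero_sub, zero_add, ← Ioc_union_Ioo_eq_Ioo (neg_nonpos.2 hr.le) hr]
    exact ((integrableOn_Ioc_iff_integrableOn_Ioo (by simp)).2 h1).union h2
  have f1 : IsFiniteMeasure (volume.restrict (ball p r)) :=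
    isFiniteMeasure_restrict.2 measure_ball_lt_top.ne
  have f2 : IsFiniteMeasure (volume.restrict (ball ((0, p) : R4) r)) :=
    isFiniteMeasure_restrict.2 measure_ball_lt_top.ne
  refine Integrable.add ?_ (integrable_const _)
  rw [← ball_prod_same, Measure.volume_eq_prod, ← Measure.prod_restrict]
  exact Integrable.comp_fst h3 _

end Vale.Agent.N354C
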